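import Vale.Agent.P025.R2.H492.Genus
import Vale.Agent.P297Z.Diff.Coord

/-! The divisor of the differential `dx` of a function field is a canonical divisor. -/

set_option linter.all false

namespace Vale.Agent.P297Y.Crr

open Vale.Agent.P019P P025H492 Polynomial IntermediateField

variable {k K : Type*} [Field k] [Field K] [Algebra k K] [CFF k K] [CharZero k]

/-- the functions with polynomial traces against a graded basis are sections of the sheaf of
differentials. -/
theorem dual_mem0 {x : K} (hx : ∀ a : k, x ≠ algebraMap k K a) [CFF k k⟮x⟯]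
    [FiniteDimensional k⟮x⟯ K] {n : ℕ} {e : Fin n → K} {a : Fin n → ℕ}
    (he : GrB x (Mr k x) e a) {r : ℕ} {θ : K} (hθ : θ ≠ 0)
    (q : Fin n → k[X]) (hq : ∀ i, q i ≠ 0 → (q i).natDegree + 2 ≤ a i + r)
    (htr : ∀ i, Algebra.trace k⟮x⟯ K (θ * e i) = aeval (AdjoinSimple.gen k x) (q i))
    (P : Plk k K) : -((ram k⟮x⟯ P : ℤ) - 1 - 2 * pol k x P + r * pol k x P) ≤ ord P θ := by
  set t := AdjoinSimple.gen k x with ht
  have htx : algebraMap k⟮x⟯ K t = x := AdjoinSimple.algebraMap_gen k x
  have hx0 : x ≠ 0 := by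
    intro h
    exact hx 0 (by rw [h, map_zero])
  have haev : ∀ f : k[X], algebraMap k⟮x⟯ K (aeval t f) = aeval x f := by
    intro f
    have h1 := aeval_algebraMap_apply K t f
    rw [htx] at h1
    exact h1.symm
  -- traces of cleared functions
  have hclear : ∀ (u : k[X]) (b : K) (m : ℤ), aeval x u * b ∈ Mr k x m →
      ∃ g : k[X], aeval t u * Algebra.trace k⟮x⟯ K (θ * b) = aeval t g ∧
        (g ≠ 0 → (g.natDegree : ℤ) ≤ m + r - 2) := by
    intro u b m hub
    obtain ⟨φ, hφ, hφd⟩ := he.span m _ hub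
    refine ⟨∑ i, φ i * q i, ?_, ?_⟩
    · have h1 : aeval t u * Algebra.trace k⟮x⟯ K (θ * b) =
          Algebra.trace k⟮x⟯ K (θ * (aeval x u * b)) := by
        have h2 : θ * (aeval x u * b) = (aeval t u) • (θ * b) := by
          rw [Algebra.smul_def, haev]
          ring
        rw [h2, map_smul, smul_eq_mul]
      rw [h1, hφ, Finset.mul_sum, map_sum, map_sum]
      refine Finset.sum_congr rfl fun i _ => ?_
      have h3 : θ * (aeval x (φ i) * e i) = (aeval t (φ i)) • (θ * e i) := by
        rw [Algebra.smul_def, haev]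
        ring
      rw [h3, map_smul, smul_eq_mul, htr, map_mul]
    · intro _
      have hterm : ∀ i, φ i * q i ≠ 0 → ((φ i * q i).natDegree : ℤ) ≤ m + r - 2 := by
        intro i hi
        have h4 := left_ne_zero_of_mul hi
        have h5 := right_ne_zero_of_mul hi
        have h6 := hφd i h4
        have h7 := hq i h5
        rw [natDegree_mul h4 h5]
        push_cast
        omega
      by_cases hm : 0 ≤ m + r - 2
      · have h8 : (∑ i, φ i * q i).natDegree ≤ (m + r - 2).toNat := by
          refine natDegree_sum_le_of_forall_le _ _ fun i _ => ?_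
          by_cases h9 : φ i * q i = 0
          · rw [h9, natDegree_zero]
            exact Nat.zero_le _
          · have := hterm i h9
            omega
        omega
      · exfalso
        apply ‹∑ i, φ i * q i ≠ 0›
        refine Finset.sum_eq_zero fun i _ => ?_
        by_contra h9
        have := hterm i h9
        omega
  by_cases hP : 0 ≤ ord P x
  · -- finite places
    have hpol : pol k x P = 0 := by
      rw [pol_apply]
      omega
    rw [hpol]
    have hc := ord_sub_vl_pos hx hP
    set c := vl P x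
    have hxc : x - algebraMap k K c = algebraMap k⟮x⟯ K (t - algebraMap k k⟮x⟯ c) := by
      rw [map_sub, htx, ← IsScalarTower.algebraMap_apply]
    have hQ : 0 < ord (down k⟮x⟯ P) (t - algebraMap k k⟮x⟯ c) := by
      rw [← ord_up_pos_iff, ← hxc]
      exact hc
    have key := (codifferent (down k⟮x⟯ P) hθ).1 (by
      intro b hb
      by_cases hb0 : b = 0
      · rw [hb0, mul_zero, map_zero, ord_zero]
      obtain ⟨u, hu0, hu1, hu2⟩ := exists_clear hx hb0
      have huc : u.eval c ≠ 0 := hu2 c fun P' hP' => hb P' (by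
        obtain ⟨Q, hQ1, hQ2⟩ := line_fib hx c
        rw [hQ2 _ hQ]
        apply hQ2
        rw [← ord_up_pos_iff, ← hxc]
        exact hP')
      have hub0 : aeval x u * b ≠ 0 := by
        refine mul_ne_zero ?_ hb0
        exact (ord_aeval_of_eval_ne hc huc).1
      obtain ⟨m, hm⟩ := exists_Mr_bound hub0 hu1
      obtain ⟨g, hg, -⟩ := hclear u b m hm
      obtain ⟨h1, h2⟩ := ord_aeval_of_eval_ne hQ huc
      by_cases htr0 : Algebra.trace k⟮x⟯ K (θ * b) = 0
      · rw [htr0, ord_zero]
      have h3 : 0 ≤ ord (down k⟮x⟯ P) (aeval t g) := ord_aeval_nonneg (by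
        refine ord_nonneg_of_sub (c := c) (mem_Mge_one_of_pos hQ)) g
      rw [← hg, ord_mul _ h1 htr0, h2, zero_add] at h3
      exact h3) P rfl
    omega
  · -- infinite places
    push Not at hP
    have hpol : pol k x P = ram k⟮x⟯ P := by
      have := ord_eq_neg_ram hx hP
      rw [pol_apply, this]
      omega
    rw [hpol]
    have hQx : ord (down k⟮x⟯ P) t < 0 := by
      by_contra hcon
      push Not at hcon
      have h1 : ord P x = ram k⟮x⟯ P * ord (down k⟮x⟯ P) t := by
        conv_lhs => rw [← htx]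
        rw [ord_algebraMap]
      have : 0 ≤ (ram k⟮x⟯ P : ℤ) * ord (down k⟮x⟯ P) t := by positivity
      omega
    obtain ⟨Q, hQ1, hQ2⟩ := line_inf hx
    have hQP : down k⟮x⟯ P = Q := hQ2 _ hQx
    have ht0 : t ≠ 0 := by
      intro h
      rw [h, ord_zero] at hQx
      exact lt_irrefl _ hQx
    have hxr : x ^ (2 - r : ℤ) ≠ 0 := zpow_ne_zero _ hx0
    have key := (codifferent (down k⟮x⟯ P) (mul_ne_zero hxr hθ)).1 (by
      intro b hb
      by_cases hb0 : b = 0
      · rw [hb0, mul_zero, map_zero, ord_zero]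
      obtain ⟨u, hu0, hu1, -⟩ := exists_clear hx hb0
      have hub : aeval x u * b ∈ Mr k x (u.natDegree : ℤ) := by
        rw [mem_Mr]
        intro P'
        by_cases hP' : 0 ≤ ord P' x
        · rw [pol_apply, max_eq_left (by omega), mul_zero, neg_zero]
          exact mem_Mge.2 (Or.inr (hu1 P' hP'))
        · push Not at hP'
          obtain ⟨h1, h2⟩ := ord_aeval_pole hP' hu0
          refine mem_Mge.2 (Or.inr ?_)
          rw [pol_apply, max_eq_right (by omega), ord_mul _ h1 hb0, h2]
          have h3 : 0 ≤ ord P' b := by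
            apply hb P'
            rw [hQP]
            apply hQ2
            by_contra hcon
            push Not at hcon
            have h4 : ord P' x = ram k⟮x⟯ P' * ord (down k⟮x⟯ P') t := by
              conv_lhs => rw [← htx]
              rw [ord_algebraMap]
            have : 0 ≤ (ram k⟮x⟯ P' : ℤ) * ord (down k⟮x⟯ P') t := by positivity
            omega
          linarith
      obtain ⟨g, hg, hgd⟩ := hclear u b _ hub
      have hmulz : Algebra.trace k⟮x⟯ K (x ^ (2 - r : ℤ) * θ * b) =
          t ^ (2 - r : ℤ) * Algebra.trace k⟮x⟯ K (θ * b) := by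
        have h5 : x ^ (2 - r : ℤ) * θ * b = (t ^ (2 - r : ℤ)) • (θ * b) := by
          rw [Algebra.smul_def, map_zpow₀, htx]
          ring
        rw [h5, map_smul, smul_eq_mul]
      rw [hmulz]
      by_cases htr0 : Algebra.trace k⟮x⟯ K (θ * b) = 0
      · rw [htr0, mul_zero, ord_zero]
      obtain ⟨h1, h2⟩ := ord_aeval_pole hQx hu0
      have hg0 : g ≠ 0 := by
        rintro rfl
        rw [map_zero] at hg
        exact mul_ne_zero h1 htr0 hg
      obtain ⟨h3, h4⟩ := ord_aeval_pole hQx hg0
      have h5 := congrArg (ord (down k⟮x⟯ P)) hg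
      rw [ord_mul _ h1 htr0, h2, h4, hQP, hQ1] at h5
      rw [ord_mul _ (zpow_ne_zero _ ht0) htr0, ord_zpow, hQP, hQ1]
      have h6 := hgd hg0
      linarith) P rfl
    rw [ord_mul _ hxr hθ, ord_zpow, ord_eq_neg_ram hx hP] at key
    linarith

/-- There are at least `g` independent regular differentials. -/
theorem gen_le_l_wdv {x : K} (hx : ∀ a : k, x ≠ algebraMap k K a) :
    gen k K ≤ Module.finrank k (LL k (wdv k x)) := by
  classical
  haveI : FiniteDimensional k⟮x⟯ K := (finite_of_notMem hx).2
  haveI : CFF k k⟮x⟯ := cff_adjoin hx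
  haveI := isSep x hx
  obtain ⟨n, hn⟩ : ∃ n, n = Module.finrank k⟮x⟯ K := ⟨_, rfl⟩
  obtain ⟨e, a, he, hsum⟩ : ∃ (e : Fin n → K) (a : Fin n → ℕ), GrB x (Mr k x) e a ∧
      ∑ i, (a i : ℤ) = n + gen k K - 1 := by
    subst hn
    exact exists_GrB hx
  have hnpos : 0 < n := by
    rw [hn]
    exact Module.finrank_pos
  let b : Module.Basis (Fin n) k⟮x⟯ K :=
    haveI : Nonempty (Fin n) := ⟨⟨0, hnpos⟩⟩
    basisOfLinearIndependentOfCardEqFinrank he.ind (by rw [Fintype.card_fin, hn])
  have hb : ∀ i, b i = e i := fun i => by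
    simp [b]
  let b' := b.traceDual
  obtain ⟨r, hr⟩ : ∃ r : ℕ, r = 0 := ⟨_, rfl⟩
  let V := (i : Fin n) → degreeLT k (a i + r - 1)
  let t := AdjoinSimple.gen k x
  have htx : algebraMap k⟮x⟯ K t = x := AdjoinSimple.algebraMap_gen k x
  have htr : Transcendental k t := by
    rw [← transcendental_algebraMap_iff (A := K) (algebraMap k⟮x⟯ K).injective, htx]
    exact (finite_of_notMem hx).1
  let Φ : V →ₗ[k] K :=
    { toFun := fun q => ∑ i, (aeval t (q i : k[X])) • b' i
      map_add' := fun p q => by
        rw [← Finset.sum_add_distrib]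
        refine Finset.sum_congr rfl fun i _ => ?_
        show (aeval t ((p i : k[X]) + (q i : k[X]))) • b' i = _
        rw [map_add, add_smul]
      map_smul' := fun c q => by
        rw [RingHom.id_apply, Finset.smul_sum]
        refine Finset.sum_congr rfl fun i _ => ?_
        show (aeval t (c • (q i : k[X]))) • b' i = _
        rw [map_smul, smul_assoc] }
  have hΦ : ∀ q : V, Φ q = ∑ i, (aeval t (q i : k[X])) • b' i := fun q => rfl
  have hinj : Function.Injective Φ := by
    rw [injective_iff_map_eq_zero]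
    intro q hq
    rw [hΦ] at hq
    have h1 := Fintype.linearIndependent_iff.1 b'.linearIndependent _ hq
    funext i
    apply Subtype.ext
    have h2 := h1 i
    by_contra h3
    exact htr ⟨q i, h3, h2⟩
  have hmem : ∀ q : V, Φ q ∈ LL k (wdv k x + r • pol k x) := by
    intro q
    by_cases h0 : Φ q = 0
    · rw [h0]
      exact zero_mem _
    refine mem_LL.2 (Or.inr fun P => ?_)
    have h1 := dual_mem0 hx he (r := r) h0 (fun i => (q i : k[X])) (by
      intro i hi
      have h2 := mem_degreeLT.1 (q i).2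
      rw [degree_eq_natDegree hi] at h2
      have h3 : (q i : k[X]).natDegree < a i + r - 1 := by exact_mod_cast h2
      omega) (by
      intro i
      rw [hΦ, Finset.sum_mul, map_sum, ← hb]
      rw [Finset.sum_congr rfl fun j _ => by
        rw [smul_mul_assoc, map_smul, b.trace_traceDual_mul, smul_eq_mul]]
      simp [t]) P
    rw [Finsupp.add_apply, wdv_apply hx, wd_eq hx, Finsupp.smul_apply, nsmul_eq_mul]
    exact h1
  have h1 : Module.finrank k V ≤ Module.finrank k (LL k (wdv k x + r • pol k x)) :=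
    LinearMap.finrank_le_finrank_of_injective (f := Φ.codRestrict _ hmem) (by
      intro p q hpq
      exact hinj (congrArg Subtype.val hpq))
  have h2 : Module.finrank k V = ∑ i, (a i + r - 1) := by
    rw [Module.finrank_pi_fintype]
    refine Finset.sum_congr rfl fun i _ => ?_
    rw [LinearEquiv.finrank_eq (degreeLTEquiv k (a i + r - 1)), Module.finrank_fin_fun]
  subst hr
  rw [zero_smul, add_zero, h2] at h1
  refine le_trans ?_ h1
  -- one of the degrees is zero
  obtain ⟨φ, hφ, hφd⟩ := he.span 0 1 (by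
    rw [mem_Mr]
    intro P
    rw [zero_mul, neg_zero]
    exact mem_Mge.2 (Or.inr (ord_one P).ge))
  obtain ⟨i₀, hi₀⟩ : ∃ i, φ i ≠ 0 := by
    by_contra hcon
    push Not at hcon
    simp [hcon] at hφ
  have ha0 : a i₀ = 0 := by
    have := hφd i₀ hi₀
    omega
  have h3 : ∑ i, ((a i : ℤ) - 1 + if i = i₀ then 1 else 0) ≤ ((∑ i, (a i + 0 - 1) : ℕ) : ℤ) := by
    rw [Nat.cast_sum]
    refine Finset.sum_le_sum fun i _ => ?_
    split_ifs with h
    · subst h
      omega
    · omega
  rw [Finset.sum_add_distrib, Finset.sum_sub_distrib, hsum] at h3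
  simp only [Finset.sum_const, Finset.card_univ, Fintype.card_fin, nsmul_eq_mul, mul_one,
    Finset.sum_ite_eq', Finset.mem_univ, if_true] at h3
  omega

/-- The derivation `d / dx`. -/
theorem exists_ddx {x : K} (hx : ∀ a : k, x ≠ algebraMap k K a) :
    ∃ D : Derivation k K K, D x = 1 ∧ ∀ w : Derivation k K K, ∀ a, w a = w x * D a := by
  obtain ⟨h1, h2⟩ := finite_of_notMem hx
  obtain ⟨d, hd⟩ := _root_.P297Z.Diff.exists_coord (CFld_basis h1 h2)
  refine ⟨d (), by simpa using hd.dual () (), fun w a => ?_⟩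
  simpa using hd.expand w a

theorem dg_wdv {x : K} (hx : ∀ a : k, x ≠ algebraMap k K a) :
    dg (wdv k x) = 2 * (gen k K : ℤ) - 2 := by
  obtain ⟨D, hD, -⟩ := exists_ddx hx
  refine dg_wdv_of_D (D := D) (fun h => ?_) hx
  rw [h] at hD
  simp at hD

/-- The divisor of `dx` is canonical. -/
theorem wdv_eq_can {x : K} (hx : ∀ a : k, x ≠ algebraMap k K a) :
    ∃ z : K, z ≠ 0 ∧ wdv k x = can k K + dv k z := by
  have h1 := RR (wdv k x)
  have h2 := gen_le_l_wdv hx
  rw [dg_wdv hx] at h1
  obtain ⟨z, hz0, hz⟩ := exists_ne_zero_of_l (k := k) (D := can k K - wdv k x) (by omega)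
  refine ⟨z, hz0, eq_of_le_of_dg_le (fun P => ?_) ?_⟩
  · have h3 := hz P
    rw [Finsupp.add_apply, Finsupp.sub_apply, Finsupp.zero_apply] at h3
    rw [Finsupp.add_apply]
    omega
  · rw [map_add, dg_dv, dg_wdv hx, dg_can_eq]
    omega

/-- The theorem of Riemann and Roch with the divisor of `dx`. -/
theorem RR_wdv {x : K} (hx : ∀ a : k, x ≠ algebraMap k K a) (D : Plk k K →₀ ℤ) :
    (Module.finrank k (LL k D) : ℤ) - Module.finrank k (LL k (wdv k x - D)) =
      dg D + 1 - gen k K := by
  obtain ⟨z, hz0, hz⟩ := wdv_eq_can hx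
  rw [← RR D, hz, add_sub_right_comm, l_add_dv _ hz0]

theorem l_wdv {x : K} (hx : ∀ a : k, x ≠ algebraMap k K a) :
    Module.finrank k (LL k (wdv k x)) = gen k K := by
  have h1 := RR_wdv hx 0
  rw [l_zero, sub_zero, map_zero] at h1
  omega

end Vale.Agent.P297Y.Crr
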