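import Vale.Agent.P297Y.An.Defs
import Vale.Agent.P297Y.An.Crr
import Vale.Agent.P297Z.Diag.SurfB

/-! Derivations dual to regular parameters; the form is regular on the base curve. -/

set_option linter.all false

open IsLocalRing

namespace Vale.Agent.P297Z.Sf

open Vale.Agent.P297Z.Dg _root_.P297Z.Diff
open Vale.Agent.P019P (CFF Plk LL gen can dg)
open P025H492 (wdv)

variable {K : Type} [Field K] [Algebra ℂ K] {S : Surf K}

namespace ParA

/-- the differentials of two generators of the maximal ideal generate -/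
theorem dv_gen (h : S.All) (d : Fin 2 → Derivation ℂ K K) {p : Pt S.W} {s t : p.ring}
    (hm : maximalIdeal p.ring = Ideal.span {s, t}) {a : K} (ha : a ∈ p.ring) :
    ∃ α ∈ p.ring, ∃ β ∈ p.ring, dv d a = α • dv d s + β • dv d t := by
  have := S.model.fin
  obtain ⟨w, hW, hw⟩ := p.exists_in
  obtain ⟨T, hT⟩ : S.W.FG := Module.Finite.iff_fg.1 inferInstance
  let N : Submodule p.ring (K × K) := Submodule.span p.ring ((fun a => dv d (a / w)) '' T)
  have sm : ∀ r ∈ p.ring, ∀ x ∈ N, r • x ∈ N := fun r hr x hx => N.smul_mem ⟨r, hr⟩ hx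
  have h1 : ∀ a ∈ chart S.W w, dv d a ∈ N := fun a ha => by
    induction ha using Algebra.adjoin_induction with
    | mem x hx =>
      obtain ⟨b, hb, rfl⟩ := hx
      rw [← hT] at hb
      induction hb using Submodule.span_induction with
      | mem x hx => exact Submodule.subset_span ⟨x, hx, rfl⟩
      | zero => simp
      | add x y _ _ hx hy =>
        simp only [add_div, map_add]
        exact add_mem hx hy
      | smul c x _ hx =>
        simp only [smul_div_assoc, map_smul]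
        exact N.smul_of_tower_mem c hx
    | algebraMap c => rw [dv_const]; exact zero_mem _
    | add x y _ _ hx hy => rw [map_add]; exact add_mem hx hy
    | mul x y h1 h2 hx hy =>
      rw [dv_mul]
      exact add_mem (sm _ (hw.chart_le h1) _ hy) (sm _ (hw.chart_le h2) _ hx)
  have h2 : ∀ a ∈ p.ring, dv d a ∈ N := fun a ha => by
    obtain ⟨m, hm, e, -⟩ := h.pt_chart p w hW hw
    obtain ⟨b, c, hc, e'⟩ := mem_loc.1 (e ▸ ha)
    rw [dv_frac d (ne_zero_of_notMem hc) e']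
    exact sm _ (e ▸ inv_mem_loc hm.isPrime hc) _ (sub_mem (h1 _ b.2) (sm _ ha _ (h1 _ c.2)))
  have h3 : N ≤ Submodule.span p.ring {dv d s, dv d t} := by
    refine Submodule.le_of_le_smul_of_le_jacobson_bot (I := maximalIdeal p.ring)
      (Submodule.fg_span (T.finite_toSet.image _)) (jacobson_eq_maximalIdeal _ bot_ne_top).ge
      (Submodule.span_le.2 ?_)
    rintro _ ⟨b, hb, rfl⟩
    obtain ⟨c, hc⟩ := h.val p (b / w) (hw.2 b (hT ▸ Submodule.subset_span hb))
    obtain ⟨h4, h5⟩ := p.van_iff.1 hc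
    rw [hm] at h5
    obtain ⟨α, β, e⟩ := Ideal.mem_span_pair.1 h5
    have h6 : dv d (b / w) = ((α : K) • dv d s + (β : K) • dv d t) +
        ((s : K) • dv d α + (t : K) • dv d β) := by
      have h7 : (α : K) * s + β * t = b / w - algebraMap ℂ K c := congrArg Subtype.val e
      have h8 := congrArg (dv d) h7
      rw [map_sub, dv_const, sub_zero, map_add, dv_mul, dv_mul] at h8
      rw [← h8]
      abel
    change dv d (b / w) ∈ _
    rw [h6]
    refine Submodule.add_mem_sup (Submodule.mem_span_pair.2 ⟨α, β, rfl⟩) (add_mem ?_ ?_)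
    · exact Submodule.smul_mem_smul (r := s) (hm ▸ Ideal.subset_span (by simp)) (h2 _ α.2)
    · exact Submodule.smul_mem_smul (r := t) (hm ▸ Ideal.subset_span (by simp)) (h2 _ β.2)
  obtain ⟨α, β, e⟩ := Submodule.mem_span_pair.1 (h3 (h2 a ha))
  exact ⟨α, α.2, β, β.2, e.symm⟩

theorem jc_ne (h : S.All) {d : Fin 2 → Derivation ℂ K K} (hd : Coord (pl S) d) {p : Pt S.W}
    {s t : K} (key : ∀ a ∈ p.ring, ∃ α ∈ p.ring, ∃ β ∈ p.ring,
      dv d a = α • dv d s + β • dv d t) : jc d s t ≠ 0 := by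
  have d00 : d 0 (S.x 1 / S.x 0) = 1 := hd.dual 0 0
  have d01 : d 0 (S.x 2 / S.x 0) = 0 := hd.dual 0 1
  have d10 : d 1 (S.x 1 / S.x 0) = 0 := hd.dual 1 0
  have d11 : d 1 (S.x 2 / S.x 0) = 1 := hd.dual 1 1
  have h1 : ∀ a : K, dv d a ∈ Submodule.span K {dv d s, dv d t} := fun a => by
    have := h.frac p
    have h2 : ∀ b : p.ring, dv d b ∈ Submodule.span K {dv d s, dv d t} := fun b => by
      obtain ⟨α, -, β, -, e⟩ := key _ b.2
      exact Submodule.mem_span_pair.2 ⟨α, β, e.symm⟩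
    obtain ⟨b, c, hc, rfl⟩ := IsFractionRing.div_surjective (A := p.ring) a
    have h3 : (c : K) ≠ 0 := fun o => nonZeroDivisors.ne_zero hc (Subtype.ext o)
    change dv d ((b : K) / c) ∈ _
    rw [dv_frac d h3 (div_mul_cancel₀ _ h3)]
    exact Submodule.smul_mem _ _ (sub_mem (h2 b) (Submodule.smul_mem _ _ (h2 c)))
  intro o
  obtain ⟨α, β, e⟩ := Submodule.mem_span_pair.1 (h1 (S.x 1 / S.x 0))
  obtain ⟨α', β', e'⟩ := Submodule.mem_span_pair.1 (h1 (S.x 2 / S.x 0))
  have a1 : α * d 0 s + β * d 0 t = 1 := (congrArg Prod.fst e).trans d00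
  have a2 : α * d 1 s + β * d 1 t = 0 := (congrArg Prod.snd e).trans d10
  have a3 : α' * d 0 s + β' * d 0 t = 0 := (congrArg Prod.fst e').trans d01
  have a4 : α' * d 1 s + β' * d 1 t = 1 := (congrArg Prod.snd e').trans d11
  have a5 : (α * β' - β * α') * jc d s t = 1 := by
    unfold jc
    linear_combination (α' * d 1 s + β' * d 1 t) * a1 - (α' * d 0 s + β' * d 0 t) * a2 + a4
  rw [o, mul_zero] at a5
  exact zero_ne_one a5

end ParA

theorem par : PAR := by
  intro K _ _ S h x s t hm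
  obtain ⟨d, hd⟩ := exists_pl S
  have key := fun a => ParA.dv_gen h d hm (a := a)
  have hJ := ParA.jc_ne h hd key
  generalize (s : K) = s at *
  generalize (t : K) = t at *
  let δ₁ := (jc d s t)⁻¹ • (d 1 t • d 0 - d 0 t • d 1)
  let δ₂ := (jc d s t)⁻¹ • (d 0 s • d 1 - d 1 s • d 0)
  have v1 : ∀ a, δ₁ a = (jc d s t)⁻¹ * (d 1 t * d 0 a - d 0 t * d 1 a) := fun a => by simp [δ₁]
  have v2 : ∀ a, δ₂ a = (jc d s t)⁻¹ * (d 0 s * d 1 a - d 1 s * d 0 a) := fun a => by simp [δ₂]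
  have r : ∀ a ∈ x.ring, δ₁ a ∈ x.ring ∧ δ₂ a ∈ x.ring := fun a ha => by
    obtain ⟨α, hα, β, hβ, e⟩ := key a ha
    have a1 : d 0 a = α * d 0 s + β * d 0 t := congrArg Prod.fst e
    have a2 : d 1 a = α * d 1 s + β * d 1 t := congrArg Prod.snd e
    have b1 : δ₁ a = α := by
      rw [v1, a1, a2, inv_mul_eq_iff_eq_mul₀ hJ, jc]
      ring
    have b2 : δ₂ a = β := by
      rw [v2, a1, a2, inv_mul_eq_iff_eq_mul₀ hJ, jc]
      ring
    rw [b1, b2]
    exact ⟨hα, hβ⟩
  refine ⟨δ₁, δ₂, r, fun C hC => ⟨regDer_of_pt h hC fun a ha => (r a ha).1,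
    regDer_of_pt h hC fun a ha => (r a ha).2⟩, ?_, ?_, ?_, ?_, fun δ a => ?_⟩
  · rw [v1, inv_mul_eq_iff_eq_mul₀ hJ, jc]; ring
  · rw [v1, inv_mul_eq_iff_eq_mul₀ hJ]; ring
  · rw [v2, inv_mul_eq_iff_eq_mul₀ hJ]; ring
  · rw [v2, inv_mul_eq_iff_eq_mul₀ hJ, jc]; ring
  · rw [v1, v2, der_pl hd δ a, der_pl hd δ s, der_pl hd δ t]
    field_simp
    rw [jc]
    ring

namespace ParA

/-- the Euler derivation acts on the graded pieces by the degree -/
theorem euler {R : Type} [CommRing R] {s t : R} (e : R → R) (ha : ∀ a b, e (a + b) = e a + e b)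
    (hm : ∀ a b, e (a * b) = a * e b + b * e a) (hs : e s = s) (ht : e t = t)
    (hI : ∀ a, e a ∈ Ideal.span {s, t}) (n : ℕ) :
    ∀ a ∈ Ideal.span {s, t} ^ n, e a - n * a ∈ Ideal.span {s, t} ^ (n + 1) := by
  have s1 : s ∈ Ideal.span {s, t} := Ideal.subset_span (by simp)
  have t1 : t ∈ Ideal.span {s, t} := Ideal.subset_span (by simp)
  have h1 : ∀ c ∈ Ideal.span {s, t}, e c - c ∈ Ideal.span {s, t} * Ideal.span {s, t} := by
    intro c hc
    obtain ⟨α, β, rfl⟩ := Ideal.mem_span_pair.1 hc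
    have : e (α * s + β * t) - (α * s + β * t) = s * e α + t * e β := by
      rw [ha, hm, hm, hs, ht]; ring
    rw [this]
    exact add_mem (Ideal.mul_mem_mul s1 (hI _)) (Ideal.mul_mem_mul t1 (hI _))
  induction n with
  | zero => intro a _; simpa using hI a
  | succ n ih =>
    intro a h
    rw [pow_succ] at h
    refine Submodule.mul_induction_on h (fun b hb c hc => ?_) fun b c hb hc => ?_
    · have : e (b * c) - (n + 1 : ℕ) * (b * c) = (e b - n * b) * c + b * (e c - c) := by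
        rw [hm]; push_cast; ring
      rw [this]
      refine add_mem ?_ ?_
      · rw [pow_succ]
        exact Ideal.mul_mem_mul (ih b hb) hc
      · rw [pow_succ, pow_succ, mul_assoc]
        exact Ideal.mul_mem_mul hb (h1 c hc)
    · have : e (b + c) - (n + 1 : ℕ) * (b + c) =
          (e b - (n + 1 : ℕ) * b) + (e c - (n + 1 : ℕ) * c) := by rw [ha]; ring
      rw [this]
      exact add_mem hb hc

/-- a regular derivation which maps a uniformiser of the curve to a unit -/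
theorem exists_unit (h : S.All) (C : Crv S.W) : ∃ (δ : Derivation ℂ K K) (p : K),
    RegDer C.pl δ ∧ C.ord p = 1 ∧ δ p ≠ 0 ∧ C.ord (δ p) = 0 := by
  obtain ⟨i, hi⟩ := h.crv_cover C
  obtain ⟨x, hx, hx'⟩ := (h.inf_pt C _ (S.x_mem i) hi).nonempty
  obtain ⟨-, -, -, -, s, t, -, -, hm⟩ := h.gens x _ (S.x_mem i) hx'
  obtain ⟨d₁, d₂, r, rC, a1, a2, a3, a4, -⟩ := par K S h x s t hm
  obtain ⟨p, hp, h1, -, h2⟩ := h.irr_of_crv x C hx
  by_contra hcon
  have dv : ∀ δ : Derivation ℂ K K, RegDer C.pl δ → ∀ hδ : δ p ∈ x.ring, p ∣ ⟨δ p, hδ⟩ := by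
    intro δ b1 b2
    rw [h2]
    by_contra b3
    push Not at b3
    exact hcon ⟨δ, p, b1, h1, b3.1, le_antisymm b3.2 (Pl.ord_nonneg_of_mem _ (hx _ b2))⟩
  obtain ⟨α, hα⟩ := dv d₁ (rC C hx).1 (r _ p.2).1
  obtain ⟨β, hβ⟩ := dv d₂ (rC C hx).2 (r _ p.2).2
  let e : x.ring → x.ring := fun a => s * ⟨d₁ a, (r _ a.2).1⟩ + t * ⟨d₂ a, (r _ a.2).2⟩
  have he : ∀ a, (e a : K) = s * d₁ a + t * d₂ a := fun _ => rfl
  have s1 : s ∈ Ideal.span {s, t} := Ideal.subset_span (by simp)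
  have t1 : t ∈ Ideal.span {s, t} := Ideal.subset_span (by simp)
  have key := euler (s := s) (t := t) e
    (fun a b => Subtype.ext (by
      show (s : K) * d₁ (a + b) + t * d₂ (a + b) = (s * d₁ a + t * d₂ a) + (s * d₁ b + t * d₂ b)
      rw [map_add, map_add]
      ring))
    (fun a b => Subtype.ext (by
      show (s : K) * d₁ (a * b) + t * d₂ (a * b) =
        a * (s * d₁ b + t * d₂ b) + b * (s * d₁ a + t * d₂ a)
      rw [d₁.leibniz, d₂.leibniz]
      simp only [smul_eq_mul]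
      ring))
    (Subtype.ext (by rw [he, a1, a3]; ring)) (Subtype.ext (by rw [he, a2, a4]; ring))
    (fun a => add_mem (Ideal.mul_mem_right _ _ s1) (Ideal.mul_mem_right _ _ t1))
  have ep : e p = p * (s * α + t * β) := by
    show s * ⟨d₁ p, _⟩ + t * ⟨d₂ p, _⟩ = _
    rw [hα, hβ]; ring
  have all : ∀ n : ℕ, p ∈ Ideal.span {s, t} ^ (n + 1) := by
    intro n
    induction n with
    | zero =>
      rw [zero_add, pow_one, ← hm]
      exact hp.not_unit
    | succ n ih =>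
      have b1 : e p ∈ Ideal.span {s, t} ^ (n + 1 + 1) := by
        rw [ep, pow_succ]
        exact Ideal.mul_mem_mul ih (add_mem (Ideal.mul_mem_right _ _ s1)
          (Ideal.mul_mem_right _ _ t1))
      have b2 := sub_mem b1 (key (n + 1) p ih)
      rw [sub_sub_cancel] at b2
      have b3 := Ideal.mul_mem_left _ (algebraMap ℂ x.ring ((n + 1 : ℕ) : ℂ)⁻¹) b2
      rwa [← mul_assoc, ← map_natCast (algebraMap ℂ x.ring), ← map_mul,
        inv_mul_cancel₀ (Nat.cast_ne_zero.2 n.succ_ne_zero), map_one, one_mul] at b3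
  have := h.reg x
  have b4 : p ∈ ⨅ n : ℕ, maximalIdeal x.ring ^ n := Ideal.mem_iInf.2 fun n =>
    Ideal.pow_le_pow_right n.le_succ (hm ▸ all n)
  rw [Ideal.iInf_pow_eq_bot_of_isLocalRing _ (maximalIdeal.isMaximal _).ne_top] at b4
  exact hp.ne_zero b4

/-- every place of the base is the restriction of a curve -/
theorem exists_crv (h : S.All) (k : IntermediateField ℂ K) [CFF ℂ k] (P : Plk ℂ k) :
    ∃ C : Crv S.W, ∀ f : k, (f : K) ∈ C.pl.ring ↔ f ∈ P.1 := by
  obtain ⟨x, h0, h1, h2⟩ := P025H816.exists_only_zero P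
  have h3 : ((x⁻¹ : k) : K) ∉ H0 (0 : Div S.W) := fun h4 => by
    obtain ⟨c, hc⟩ := h.const _ h4
    have h5 : x⁻¹ = algebraMap ℂ k c := Subtype.ext hc
    have h6 := P019P.ord_inv P x
    rw [h5, P019P.ord_const] at h6
    omega
  have h4 : ∃ C : Crv S.W, ((x⁻¹ : k) : K) ∉ C.pl.ring := by
    by_contra h5
    push Not at h5
    exact h3 (Or.inr fun C _ => by simpa using Pl.ord_nonneg_of_mem _ (h5 C))
  obtain ⟨C, hC⟩ := h4
  let Q : Plk ℂ k := ⟨C.pl.ring.comap (algebraMap k K), fun c => C.const_mem c,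
    fun e => hC (show x⁻¹ ∈ C.pl.ring.comap (algebraMap k K) from e ▸ ValuationSubring.mem_top _)⟩
  have hQ : Q = P := by
    by_contra h5
    refine hC (show x⁻¹ ∈ Q.1 from (P019P.mem_iff_ord Q _).2 (Or.inr ?_))
    have := h2 Q h5
    rw [P019P.ord_inv]
    omega
  exact ⟨C, fun f => hQ ▸ Iff.rfl⟩

theorem der_res (k : IntermediateField ℂ K) {π : k} {D : Derivation ℂ k k}
    (hD : ∀ w : Derivation ℂ k k, ∀ a, w a = w π * D a) (δ : Derivation ℂ K K) (a : k) :
    δ a = (D a : K) * δ π := by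
  rw [← sub_eq_zero, ← Module.forall_dual_apply_eq_zero_iff k]
  intro l
  have h1 : l (δ a) = l (δ π) * D a := hD (l.compDer (δ.compAlgebraMap k)) a
  have h2 : (D a : K) * δ π = D a • δ π := rfl
  rw [map_sub, h1, h2, map_smul, smul_eq_mul, mul_comm, sub_self]

/-- the order of the derivative of a function which vanishes along the curve -/
theorem ord_der {C : Crv S.W} {δ : Derivation ℂ K K} {p f : K} (hδ : RegDer C.pl δ)
    (hp : C.ord p = 1) (h0 : δ p ≠ 0) (h1 : C.ord (δ p) = 0) (hf : 0 < C.ord f) :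
    δ f ≠ 0 ∧ C.ord (δ f) = C.ord f - 1 := by
  have hC : CharZero K := charZero_of_injective_algebraMap (algebraMap ℂ K).injective
  obtain ⟨n, hn⟩ : ∃ n : ℕ, C.ord f = n + 1 := ⟨(C.ord f - 1).toNat, by omega⟩
  have p0 : p ≠ 0 := by
    rintro rfl
    simp at hp
  have f0 : f ≠ 0 := by
    rintro rfl
    simp at hf
  obtain ⟨v, rfl⟩ : ∃ v, f = p ^ (n + 1) * v := ⟨f / p ^ (n + 1), by field_simp⟩
  have v0 : v ≠ 0 := right_ne_zero_of_mul f0
  have hp' : C.pl.ord p = 1 := hp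
  have hv : C.pl.ord v = 0 := by
    have := Pl.ord_mul C.pl (pow_ne_zero (n + 1) p0) v0
    rw [Pl.ord_pow, hp'] at this
    unfold Crv.ord at hn
    push_cast at this
    omega
  have n0 : ((n + 1 : ℕ) : K) ≠ 0 := Nat.cast_ne_zero.2 n.succ_ne_zero
  have e : δ (p ^ (n + 1) * v) = p ^ n * ((n + 1 : ℕ) * v * δ p + p * δ v) := by
    rw [δ.leibniz, δ.leibniz_pow]
    simp only [smul_eq_mul, nsmul_eq_mul, Nat.add_sub_cancel]
    ring
  have a0 : ((n + 1 : ℕ) : K) * v * δ p ≠ 0 := mul_ne_zero (mul_ne_zero n0 v0) h0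
  have a1 : C.pl.ord (((n + 1 : ℕ) : K) * v * δ p) = 0 := by
    have := C.ord_const ((n + 1 : ℕ) : ℂ)
    rw [map_natCast] at this
    rw [Pl.ord_mul _ (mul_ne_zero n0 v0) h0, Pl.ord_mul _ n0 v0, hv]
    unfold Crv.ord at *
    omega
  have a2 : ((n + 1 : ℕ) : K) * v * δ p + p * δ v ≠ 0 ∧
      C.pl.ord (((n + 1 : ℕ) : K) * v * δ p + p * δ v) = 0 := by
    by_cases b0 : δ v = 0
    · rw [b0, mul_zero, add_zero]
      exact ⟨a0, a1⟩
    · have b1 := Pl.ord_nonneg_of_mem _ (hδ v ((Pl.ord_nonneg_iff _ v0).1 hv.ge))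
      have b2 := Pl.ord_mul C.pl p0 b0
      refine ⟨fun b3 => ?_, (Pl.ord_add_eq_of_lt _ a0 (mul_ne_zero p0 b0) (by omega)).trans a1⟩
      rw [eq_neg_of_add_eq_zero_left b3, Pl.ord_neg] at a1
      omega
  rw [hn, e]
  refine ⟨mul_ne_zero (pow_ne_zero _ p0) a2.1, ?_⟩
  unfold Crv.ord
  rw [Pl.ord_mul _ (pow_ne_zero _ p0) a2.1, Pl.ord_pow, hp', a2.2]
  ring

end ParA

theorem regb : REGB := by
  intro K _ _ S h φ
  have main : φ.a ∈ LL ℂ (wdv ℂ φ.u) := by
    refine Or.inr fun P => ?_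
    obtain ⟨C, hC⟩ := ParA.exists_crv h φ.k P
    obtain ⟨δ, p, r, b1, b2, b3⟩ := ParA.exists_unit h C
    obtain ⟨π, π0, hπ⟩ := P019P.exists_unif P
    have ne : ∀ {f : φ.k}, f ≠ 0 → (f : K) ≠ 0 := fun hf e => hf (Subtype.ext e)
    have he : 0 < C.ord π := Pl.ord_pos_of_inv_notMem _ fun b => by
      have := ((P019P.mem_iff_ord P _).1 ((hC π⁻¹).1 b)).resolve_left (inv_ne_zero π0)
      rw [P019P.ord_inv] at this
      omega
    have ho : ∀ f : φ.k, f ≠ 0 → C.ord f = P019P.ord P f * C.ord π := by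
      intro f f0
      have z0 : π ^ P019P.ord P f ≠ 0 := zpow_ne_zero _ π0
      have c1 : P019P.ord P (f * (π ^ P019P.ord P f)⁻¹) = 0 := by
        rw [P019P.ord_mul P f0 (inv_ne_zero z0), P019P.ord_inv, P019P.ord_zpow, hπ]
        ring
      have c2 := Pl.ord_unit C.pl ((hC _).2 ((P019P.mem_iff_ord P _).2 (Or.inr c1.ge)))
        ((hC (f * (π ^ P019P.ord P f)⁻¹)⁻¹).2 ((P019P.mem_iff_ord P _).2
          (Or.inr (by rw [P019P.ord_inv, c1]; exact le_rfl))))
      have c3 : ((f * (π ^ P019P.ord P f)⁻¹ : φ.k) : K) = f / (π : K) ^ P019P.ord P f := by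
        show algebraMap φ.k K (f * (π ^ P019P.ord P f)⁻¹) = _
        rw [map_mul, map_inv₀, map_zpow₀, div_eq_mul_inv]
        rfl
      rw [c3, Pl.ord_div _ (ne f0) (zpow_ne_zero _ (ne π0)), Pl.ord_zpow] at c2
      unfold Crv.ord
      omega
    have nc : ∀ c : ℂ, π ≠ algebraMap ℂ φ.k c := fun c e => by
      rw [e, P019P.ord_const] at hπ
      omega
    obtain ⟨D, hD, hD'⟩ := P297Y.Crr.exists_ddx nc
    have D0 : D ≠ 0 := fun e => by simp [e] at hD
    have c1 := P025H492.ord_D_eq_wd D0 φ.u_nc P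
    rw [P025H492.ordD_eq D0 hπ, hD, P019P.ord_one, add_zero] at c1
    have u0 : D φ.u ≠ 0 := P025H492.der_ne_zero D0 φ.u_nc
    obtain ⟨c2, c3⟩ := ParA.ord_der r b1 b2 b3 he
    have c4 := Pl.ord_nonneg_of_mem _ (φ.reg C δ r)
    rw [ParA.der_res φ.k hD' δ φ.u, Pl.ord_mul _ (ne φ.a_ne) (mul_ne_zero (ne u0) c2),
      Pl.ord_mul _ (ne u0) c2] at c4
    have c5 := ho _ φ.a_ne
    have c6 := ho _ u0
    rw [P025H492.wdv_apply φ.u_nc, ← c1]
    unfold Crv.ord at *
    rw [c3, c5, c6] at c4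
    by_contra c7
    nlinarith
  refine ⟨main, ?_⟩
  by_contra h1
  have h2 := P297Y.Crr.dg_wdv φ.u_nc
  rw [P019P.LL_eq_bot (by omega)] at main
  exact φ.a_ne main

end Vale.Agent.P297Z.Sf
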