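import Vale.Agent.P297Y.An.Tame
import Mathlib.FieldTheory.Galois.Infinite
import Mathlib.RingTheory.Derivation.Lie

/-! Derivations of fields: kernels, minimal polynomials, extensions to the algebraic closure. -/

set_option linter.all false

namespace Vale.Agent.P297Y.Alb

open Polynomial IntermediateField _root_.P297Z.Diff

section gen

variable {k F L : Type*} [Field k] [Field F] [Field L] [Algebra k F] [Algebra k L] [Algebra F L]

theorem der_aeval {E : Type*} [Field E] [Algebra E F] (w : Derivation k F L)
    (hw : ∀ e : E, w (algebraMap E F e) = 0) (a : F) (p : E[X]) :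
    w (aeval a p) = aeval a (derivative p) • w a := by
  induction p using Polynomial.induction_on' with
  | add p q hp hq => rw [map_add, map_add, hp, hq, derivative_add, map_add, add_smul]
  | monomial n c =>
    rw [derivative_monomial, aeval_monomial, aeval_monomial, Derivation.leibniz, hw, smul_zero,
      add_zero, Derivation.leibniz_pow, map_mul, map_natCast, mul_smul, mul_smul,
      Nat.cast_smul_eq_nsmul]

/-- A derivation which kills a field kills what is algebraic over it. -/
theorem der_alg {E : Type*} [Field E] [CharZero E] [Algebra E F] (w : Derivation k F L)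
    (hw : ∀ e : E, w (algebraMap E F e) = 0) {a : F} (ha : IsAlgebraic E a) : w a = 0 := by
  have h1 := der_aeval w hw a (minpoly E a)
  rw [minpoly.aeval, map_zero] at h1
  have h2 := (minpoly.irreducible ha.isIntegral).separable.aeval_derivative_ne_zero
    (minpoly.aeval E a)
  exact (smul_eq_zero.1 h1.symm).resolve_left h2

/-- The kernel of a derivation. -/
def kerF (w : Derivation k F L) : IntermediateField k F where
  carrier := {a | w a = 0}
  mul_mem' := fun {a b} ha hb => by
    change w (a * b) = 0
    rw [Derivation.leibniz, show w a = 0 from ha, show w b = 0 from hb, smul_zero, smul_zero,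
      add_zero]
  add_mem' := fun {a b} ha hb => by
    change w (a + b) = 0
    rw [map_add, show w a = 0 from ha, show w b = 0 from hb, add_zero]
  algebraMap_mem' := fun c => w.map_algebraMap c
  inv_mem' := fun a ha => by
    change w a⁻¹ = 0
    rw [Derivation.leibniz_inv, show w a = 0 from ha, smul_zero]

theorem mem_kerF {w : Derivation k F L} {a : F} : a ∈ kerF w ↔ w a = 0 := Iff.rfl

/-- A transcendental element has a nonzero differential. -/
theorem exists_der_one [CharZero k] {z : F} (hz : Transcendental k z) :
    ∃ e : Derivation k F F, e z = 1 := by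
  classical
  have h1 : AlgebraicIndepOn k id ({z} : Set F) := by
    rw [AlgebraicIndepOn, algebraicIndependent_unique_type_iff]
    exact hz
  obtain ⟨t, ht, hb⟩ := exists_isTranscendenceBasis_superset h1
  obtain ⟨d, hd⟩ := exists_coord hb
  refine ⟨d ⟨z, ht rfl⟩, ?_⟩
  have := hd.dual ⟨z, ht rfl⟩ ⟨z, ht rfl⟩
  rwa [if_pos rfl] at this

/-- If the extension of a derivation kills an algebraic element, the derivation kills the
coefficients of its minimal polynomial. -/
theorem der_coeff {δ : Derivation k F F} {d : Derivation k L L}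
    (hd : ∀ a, d (algebraMap F L a) = algebraMap F L (δ a)) {z : L} (hz : IsIntegral F z)
    (h0 : d z = 0) (i : ℕ) : δ ((minpoly F z).coeff i) = 0 := by
  have hm := minpoly.monic hz
  have htop : δ ((minpoly F z).coeff (minpoly F z).natDegree) = 0 := by
    rw [hm.coeff_natDegree, Derivation.map_one_eq_zero]
  have h1 : d (aeval z (minpoly F z)) = 0 := by rw [minpoly.aeval, map_zero]
  rw [aeval_eq_sum_range, map_sum] at h1
  have h2 : ∀ j, d ((minpoly F z).coeff j • z ^ j) = δ ((minpoly F z).coeff j) • z ^ j := by
    intro j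
    rw [Algebra.smul_def, Derivation.leibniz, Derivation.leibniz_pow, h0, hd, Algebra.smul_def
      (δ _), smul_zero, smul_zero, smul_zero, zero_add, smul_eq_mul, mul_comm]
  simp only [h2] at h1
  rw [Finset.sum_range_succ, htop, zero_smul, add_zero, Finset.sum_range] at h1
  rcases lt_trichotomy i (minpoly F z).natDegree with h | h | h
  · exact Fintype.linearIndependent_iff.1 (linearIndependent_pow (K := F) z)
      (fun j => δ ((minpoly F z).coeff j)) h1 ⟨i, h⟩
  · rw [h]; exact htop
  · rw [coeff_eq_zero_of_natDegree_lt h, map_zero]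

/-- Some coefficient of the minimal polynomial of a transcendental element is transcendental. -/
theorem exists_coeff [IsScalarTower k F L] {z : L} (hz : IsIntegral F z)
    (ht : Transcendental k z) : ∃ i, Transcendental k ((minpoly F z).coeff i) := by
  by_contra h
  have h1 : ∀ i, (minpoly F z).coeff i ∈ algebraicClosure k F := fun i =>
    mem_algebraicClosure_iff.2 (by_contra fun hi => h ⟨i, hi⟩)
  have h2 : minpoly F z ∈ lifts (algebraMap (algebraicClosure k F) F) :=
    (lifts_iff_coeff_lifts _).2 fun i => ⟨⟨_, h1 i⟩, rfl⟩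
  obtain ⟨q, hq, -, hm⟩ := lifts_and_degree_eq_and_monic h2 (minpoly.monic hz)
  have h3 : IsIntegral (algebraicClosure k F) z := by
    refine ⟨q, hm, ?_⟩
    rw [← aeval_def, ← aeval_map_algebraMap F, hq, minpoly.aeval]
  exact ht (isIntegral_trans (R := k) z h3).isAlgebraic

omit [Algebra F L] in
/-- The chain rule along a map from a curve. -/
theorem chain [CharZero k] (w : Derivation k L L) (y : F →ₐ[k] L) {s : F}
    [FiniteDimensional k⟮s⟯ F] {D : Derivation k F F} (hD : D s = 1) (a : F) :
    w (y a) = y (D a) * w (y s) := by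
  letI : Algebra F L := y.toRingHom.toAlgebra
  haveI : IsScalarTower k F L := IsScalarTower.of_algebraMap_eq fun c => (y.commutes c).symm
  let w' : Derivation k F L :=
    w.compAlgebraMap F - w (y s) • (Algebra.linearMap F L).compDer D
  have h1 : ∀ b, w' b = w (y b) - w (y s) * y (D b) := fun b => rfl
  have h2 : k⟮s⟯ ≤ kerF w' := adjoin_simple_le_iff.2 (by
    rw [mem_kerF, h1, hD, map_one, mul_one, sub_self])
  have h3 := der_alg (E := k⟮s⟯) w' (fun e => h2 e.2) (Algebra.IsAlgebraic.isAlgebraic a)
  rw [h1, sub_eq_zero] at h3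
  rw [h3, mul_comm]

end gen

section fin

open scoped IntermediateField.algebraAdjoinAdjoin

variable {k₀ k K : Type*} [Field k₀] [Field k] [Field K] [Algebra k₀ k] [Algebra k₀ K]
  [Algebra k K] [IsScalarTower k₀ k K]

/-- A field is finite over `k₀` if it is linearly disjoint from a field under a finite one. -/
theorem finite_of_trans {v : K} (hv : Transcendental k v) [FiniteDimensional k₀⟮v⟯ K] :
    FiniteDimensional k₀ k := by
  have key : ∀ s : Finset k, (LinearIndependent k₀ fun i : s => (i : k)) →
      s.card ≤ Module.finrank k₀⟮v⟯ K := by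
    intro s hs
    have h1 : LinearIndependent (Algebra.adjoin k₀ {v}) fun i : s => algebraMap k K i := by
      rw [Fintype.linearIndependent_iff]
      intro g hg i
      have hp : ∀ j, ∃ p : k₀[X], aeval v p = (g j : K) := fun j =>
        (Algebra.adjoin_singleton_eq_range_aeval k₀ v).le (g j).2
      choose p hp using hp
      have h2 : (∑ j : s, C (j : k) * (p j).map (algebraMap k₀ k)) = 0 := by
        by_contra hne
        refine hv ⟨_, hne, ?_⟩
        rw [map_sum, ← hg]
        refine Finset.sum_congr rfl fun j _ => ?_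
        rw [map_mul, aeval_C, aeval_map_algebraMap, hp, mul_comm]
        rfl
      have h3 : p i = 0 := by
        ext n
        have h4 := congrArg (fun q => coeff q n) h2
        simp only [finset_sum_coeff, coeff_C_mul, coeff_map, coeff_zero] at h4
        refine Fintype.linearIndependent_iff.1 hs (fun j => (p j).coeff n) ?_ i
        rw [← h4]
        refine Finset.sum_congr rfl fun j _ => ?_
        rw [Algebra.smul_def, mul_comm]
      exact Subtype.ext (by rw [← hp, h3, map_zero]; rfl)
    have h5 := (LinearIndependent.iff_fractionRing (Algebra.adjoin k₀ {v}) k₀⟮v⟯).1 h1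
    simpa using h5.fintype_card_le_finrank
  exact Module.rank_lt_aleph0_iff.1 ((rank_le key).trans_lt (Cardinal.natCast_lt_aleph0))

end fin

section ext

variable {K : Type} [Field K] [Algebra ℂ K]

/-- The extension of a derivation to the algebraic closure. -/
noncomputable def ex (δ : Derivation ℂ K K) :
    Derivation ℂ (AlgebraicClosure K) (AlgebraicClosure K) :=
  (exists_der_ext (L := AlgebraicClosure K) δ).choose

theorem ex_map (δ : Derivation ℂ K K) (a : K) :
    ex δ (algebraMap K (AlgebraicClosure K) a) = algebraMap K (AlgebraicClosure K) (δ a) :=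
  (exists_der_ext (L := AlgebraicClosure K) δ).choose_spec a

theorem ex_comb {δ δ₁ δ₂ : Derivation ℂ K K} {p q : K} (h : ∀ a, δ a = p * δ₁ a + q * δ₂ a)
    (z : AlgebraicClosure K) : ex δ z = algebraMap K _ p * ex δ₁ z + algebraMap K _ q * ex δ₂ z := by
  have : ex δ = algebraMap K (AlgebraicClosure K) p • ex δ₁ +
      algebraMap K (AlgebraicClosure K) q • ex δ₂ := der_unique (K := K) fun a => by
    simp only [Derivation.add_apply, Derivation.smul_apply, ex_map, h, smul_eq_mul, map_add,
      map_mul]
  rw [this]
  rfl

theorem ex_comm {δ₁ δ₂ : Derivation ℂ K K} (h : ∀ a, δ₁ (δ₂ a) = δ₂ (δ₁ a))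
    (z : AlgebraicClosure K) : ex δ₁ (ex δ₂ z) = ex δ₂ (ex δ₁ z) := by
  have : ⁅ex δ₁, ex δ₂⁆ = 0 := der_unique (K := K) fun a => by
    rw [Derivation.commutator_apply, ex_map, ex_map, ex_map, ex_map, h, sub_self]
    rfl
  have h2 := congrArg (fun d : Derivation ℂ (AlgebraicClosure K) (AlgebraicClosure K) => d z) this
  simp only [Derivation.commutator_apply] at h2
  exact sub_eq_zero.1 h2

/-- The extension commutes with the Galois group. -/
theorem ex_gal (δ : Derivation ℂ K K) (σ : AlgebraicClosure K ≃ₐ[K] AlgebraicClosure K)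
    (z : AlgebraicClosure K) : σ (ex δ z) = ex δ (σ z) := by
  let τ := σ.restrictScalars ℂ
  let d : Derivation ℂ (AlgebraicClosure K) (AlgebraicClosure K) :=
    Derivation.mk' (τ.symm.toLinearMap ∘ₗ (ex δ).toLinearMap ∘ₗ τ.toLinearMap) fun a b => by
      change σ.symm (ex δ (σ (a * b))) = a * σ.symm (ex δ (σ b)) + b * σ.symm (ex δ (σ a))
      rw [map_mul, Derivation.leibniz, smul_eq_mul, smul_eq_mul, map_add, map_mul, map_mul,
        σ.symm_apply_apply, σ.symm_apply_apply]
  have hd : ∀ a, d a = σ.symm (ex δ (σ a)) := fun a => rfl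
  have : ex δ = d := der_unique (K := K) fun a => by
    rw [hd, σ.commutes, ex_map, σ.symm.commutes]
  conv_lhs => rw [this, hd, σ.apply_symm_apply]

variable {F : Type} [Field F] [Algebra ℂ F]

/-- The trace of the form `h dt` is rational over `K`. -/
theorem exists_form {Y : Finset (F →ₐ[ℂ] AlgebraicClosure K)}
    (hY : ∀ σ : AlgebraicClosure K ≃ₐ[K] AlgebraicClosure K, ∀ y ∈ Y, ∃ y' ∈ Y,
      ∀ h, y' h = σ (y h)) (t h : F) (δ : Derivation ℂ K K) :
    ∃ b : K, algebraMap K _ b = ∑ y ∈ Y, y h * ex δ (y t) := by
  haveI : CharZero K := charZero_of_injective_algebraMap (algebraMap ℂ K).injective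
  haveI : IsGalois K (AlgebraicClosure K) := {}
  refine (InfiniteGalois.mem_range_algebraMap_iff_fixed _).2 fun σ => ?_
  have hm : ∀ (σ : AlgebraicClosure K ≃ₐ[K] AlgebraicClosure K), ∀ y ∈ Y,
      (σ.restrictScalars ℂ).toAlgHom.comp y ∈ Y := fun σ y hy => by
    obtain ⟨y', h1, h2⟩ := hY σ y hy
    rwa [show y' = (σ.restrictScalars ℂ).toAlgHom.comp y from AlgHom.ext h2] at h1
  rw [map_sum]
  refine Finset.sum_nbij' (fun y => (σ.restrictScalars ℂ).toAlgHom.comp y)
    (fun y => (σ.symm.restrictScalars ℂ).toAlgHom.comp y) (hm σ) (hm σ.symm)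
    (fun y _ => AlgHom.ext fun a => σ.symm_apply_apply _)
    (fun y _ => AlgHom.ext fun a => σ.apply_symm_apply _) fun y _ => ?_
  rw [map_mul, ex_gal]
  rfl

end ext

end Vale.Agent.P297Y.Alb
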