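import Vale.Agent.P297Z.Surf.AllOf
import Vale.Agent.P025.R2.H816.BC3
import Vale.Agent.P025.R2.H816.BC4
import Vale.Agent.P025.R2.H492.Canon3

/-! P297, positive irregularity: the fibration over a curve of positive genus. Statements. -/

set_option linter.all false

open IsLocalRing TensorProduct

namespace Vale.Agent.P297Z.Sf

open Vale.Agent.P019P (CFF Plk LL gen can dg prn)
open P025H492 (wdv)

variable {K : Type} [Field K] [Algebra ℂ K]

/-- A subfield `k` of transcendence degree one of the function field of `S`, algebraically closed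
in it, with a nonzero form `a du` that is regular along all the curves of `S`. -/
structure Fib (S : Surf K) where
  /-- the function field of the base curve -/
  k : IntermediateField ℂ K
  [cff : CFF ℂ k]
  closed : ∀ z : K, IsAlgebraic k z → z ∈ k
  /-- the form is `a du` -/
  u : k
  /-- the form is `a du` -/
  a : k
  u_nc : ∀ c : ℂ, u ≠ algebraMap ℂ k c
  a_ne : a ≠ 0
  reg : ∀ (C : Crv S.W) (δ : Derivation ℂ K K), RegDer C.pl δ → (a : K) * δ u ∈ C.pl.ring

attribute [instance] Fib.cff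

/-- `π` is the map on points of a morphism to the curve with function field `k`. -/
def IsPi {W : Submodule ℂ K} (k : IntermediateField ℂ K) [CFF ℂ k] (π : Pt W → Plk ℂ k) : Prop :=
  ∀ (x : Pt W) (f : k), (0 ≤ P019P.ord (π x) f → (f : K) ∈ x.ring) ∧
    (0 < P019P.ord (π x) f → x.Van f)

/-- A matrix of rank one over `K ⊗ F` that is not a product of a column and a row. -/
def HasU (K : Type) [Field K] [Algebra ℂ K] : Prop :=
  ∃ (F : Type) (_ : Field F) (_ : Algebra ℂ F) (_ : CFF ℂ F) (u : Fin 2 → Fin 2 → K ⊗[ℂ] F),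
    u 0 0 ≠ 0 ∧ u 0 0 * u 1 1 = u 0 1 * u 1 0 ∧
      ¬ ∃ z z' : Fin 2 → K ⊗[ℂ] F, ∀ i j, u i j = z i * z' j

/-- A Galois stable set of non constant points of a curve, with values in the algebraic closure
of `K`, which impose independent conditions on the regular forms `h dt`. -/
def HasY (K : Type) [Field K] [Algebra ℂ K] : Prop :=
  ∃ (F : Type) (_ : Field F) (_ : Algebra ℂ F) (_ : CFF ℂ F) (t : F)
    (Y : Finset (F →ₐ[ℂ] AlgebraicClosure K)), (∀ c : ℂ, t ≠ algebraMap ℂ F c) ∧ Y.Nonempty ∧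
    (∀ σ : AlgebraicClosure K ≃ₐ[K] AlgebraicClosure K, ∀ y ∈ Y, ∃ y' ∈ Y, ∀ h, y' h = σ (y h)) ∧
    ∀ c : (F →ₐ[ℂ] AlgebraicClosure K) → AlgebraicClosure K,
      (∀ h ∈ LL ℂ (wdv ℂ t), ∑ y ∈ Y, c y * y h = 0) → ∀ y ∈ Y, c y = 0

/-! ### The blocks -/

/-- The divisor of `dx` is canonical. -/
def CRR : Prop := ∀ (k F : Type) [Field k] [Field F] [Algebra k F] [CFF k F] [CharZero k] (x : F),
  (∀ c : k, x ≠ algebraMap k F c) → ∃ z : F, z ≠ 0 ∧ wdv k x = can k F + P019P.dv k z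

/-- Logarithmic derivations extend to algebraic extensions. -/
def TAME : Prop := ∀ (K L : Type) [Field K] [Field L] [Algebra ℂ K] [Algebra ℂ L] [Algebra K L]
  [IsScalarTower ℂ K L] [Algebra.IsAlgebraic K L] (V : ValuationSubring L) (p : K)
  (d : Derivation ℂ K K) (D : Derivation ℂ L L), (∀ c : ℂ, algebraMap ℂ L c ∈ V) → p ≠ 0 →
  V.valuation (algebraMap K L p) < 1 →
  (∀ z : K, z ≠ 0 → ∃ n : ℤ, V.valuation (algebraMap K L z) = V.valuation (algebraMap K L p) ^ n) →
  (∀ z : K, D (algebraMap K L z) = algebraMap K L (d z)) →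
  (∀ z : K, V.valuation (algebraMap K L z) ≤ 1 → V.valuation (algebraMap K L (d z)) ≤ 1) →
  V.valuation (algebraMap K L (d p)) < 1 →
  (∀ z : L, V.valuation z ≤ 1 → V.valuation (D z) ≤ 1) ∧
  (∀ z : L, V.valuation z < 1 → V.valuation (D z) < 1) ∧
  ((∀ z : K, V.valuation (algebraMap K L z) ≤ 1 → V.valuation (algebraMap K L (d z)) < 1) →
    ∀ z : L, V.valuation z ≤ 1 → V.valuation (D z) < 1)

/-- The derivations dual to regular parameters. -/
def PAR : Prop := ForAll fun {K} _ _ S => S.All → ∀ (x : Pt S.W) (s t : x.ring),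
  maximalIdeal x.ring = Ideal.span {s, t} → ∃ d₁ d₂ : Derivation ℂ K K,
    (∀ a ∈ x.ring, d₁ a ∈ x.ring ∧ d₂ a ∈ x.ring) ∧
    (∀ C : Crv S.W, x.On C → RegDer C.pl d₁ ∧ RegDer C.pl d₂) ∧
    d₁ s = 1 ∧ d₁ t = 0 ∧ d₂ s = 0 ∧ d₂ t = 1 ∧
    ∀ (δ : Derivation ℂ K K) (a : K), δ a = δ s * d₁ a + δ t * d₂ a

/-- Approximation of formal solutions by algebraic ones. -/
def ART : Prop := ∀ (ι : Type) [Fintype ι] (c : ι → PowerSeries ℂ) (N : ℕ),
  ∃ c' : ι → PowerSeries ℂ,
    (∀ i, ∃ Q : Polynomial (Polynomial ℂ), Q ≠ 0 ∧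
      Q.eval₂ Polynomial.coeToPowerSeries.ringHom (c' i) = 0) ∧
    (∀ i, PowerSeries.X ^ N ∣ c' i - c i) ∧
    ∀ P : MvPolynomial ι ℂ, MvPolynomial.aeval c P = 0 → MvPolynomial.aeval c' P = 0

/-- A non trivial family of line bundles over a curve. -/
def PIC1 : Prop := ForAll fun {K} _ _ S => S.All → ¬ S.Cech1 0 → HasU K

/-- The rigid effective divisor in the class of the family. -/
def PIC2 : Prop := ∀ (K : Type) [Field K] [Algebra ℂ K], HasU K → HasY K

/-- The regular forms and the fibration. -/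
def ALB : Prop := ForAll fun {K} _ _ S => S.All → H0 S.kap = ⊥ → HasY K → Nonempty (Fib S)

/-- The fibration is a morphism. -/
def MOR : Prop := ForAll fun S => S.All → ∀ φ : Fib S, ∃ π : Pt S.W → Plk ℂ φ.k, IsPi φ.k π

/-- The form is regular on the base curve, which has positive genus. -/
def REGB : Prop := ForAll fun S => S.All → ∀ φ : Fib S,
  φ.a ∈ LL ℂ (wdv ℂ φ.u) ∧ 1 ≤ gen ℂ φ.k

/-- The fibration. -/
def ALBF : Prop := ForAll fun S => S.All → H0 S.kap = ⊥ → ¬ S.Cech1 0 → Nonempty (Fib S)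

theorem albf_of (h1 : PIC1) (h2 : PIC2) (h3 : ALB) : ALBF :=
  fun K _ _ S h hp hq => h3 K S h hp (h2 K (h1 K S h hq))

end Vale.Agent.P297Z.Sf
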