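import Vale.Agent.P297Y.An.Alb1
import Vale.Agent.P297Y.An.Crr
import Vale.Agent.P297Y.An.Defs
import Vale.Agent.P297Z.Diff.Can

/-! The traces of the regular forms of a curve are regular forms on the surface. -/

set_option linter.all false

namespace Vale.Agent.P297Y.Alb

open Polynomial IntermediateField _root_.P297Z.Diff
open Vale.Agent.P297 (Place)
open Vale.Agent.P297Z Vale.Agent.P297Z.Sf
open Vale.Agent.P019P (CFF Plk LL)
open P025H492 (wdv)

variable {K : Type} [Field K] [Algebra ℂ K] {F : Type} [Field F] [Algebra ℂ F] [CFF ℂ F]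

theorem trans_of_nc {E : Type*} [Field E] [Algebra ℂ E] {x : E}
    (hx : ∀ c : ℂ, x ≠ algebraMap ℂ E c) : Transcendental ℂ x := by
  intro h
  obtain ⟨c, hc⟩ := minpoly.mem_range_of_degree_eq_one ℂ x
    (IsAlgClosed.degree_eq_one_of_irreducible ℂ (minpoly.irreducible h.isIntegral))
  exact hx c hc.symm

theorem nc_of_trans {E : Type*} [Field E] [Algebra ℂ E] {x : E} (hx : Transcendental ℂ x)
    (c : ℂ) : x ≠ algebraMap ℂ E c := fun h => hx (h ▸ isAlgebraic_algebraMap c)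

theorem mul_mem_nonunits {L : Type*} [Field L] {V : ValuationSubring L} {a b : L} (ha : a ∈ V)
    (hb : b ∈ V.nonunits) : a * b ∈ V.nonunits := by
  rw [ValuationSubring.mem_nonunits_iff] at hb ⊢
  rw [map_mul]
  exact (mul_le_of_le_one_left' ((V.valuation_le_one_iff a).2 ha)).trans_lt hb

/-- One term of the trace has a pole of order less than one. -/
theorem term_mem (P : Place K) (hc : ∀ c : ℂ, algebraMap ℂ K c ∈ P.ring)
    (V : ValuationSubring (AlgebraicClosure K))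
    (hV : ∀ a : K, algebraMap K (AlgebraicClosure K) a ∈ V ↔ a ∈ P.ring)
    {δ : Derivation ℂ K K} (hδ : RegDer P δ) {π : K} (hπ0 : π ≠ 0) (hπ : 0 < P.ord π)
    {t : F} (ht : ∀ c : ℂ, t ≠ algebraMap ℂ F c) {h : F} (hh : h ∈ LL ℂ (wdv ℂ t))
    (y : F →ₐ[ℂ] AlgebraicClosure K) :
    algebraMap K _ π * (y h * ex δ (y t)) ∈ V.nonunits := by
  have ht' : ∀ a ∈ V, algebraMap K _ π * ex δ a ∈ V.nonunits := fun a ha =>
    tame P hc V hV hδ (ex_map δ) hπ0 hπ ha
  by_cases hO : V.comap y.toRingHom = ⊤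
  · have h1 : ∀ a : F, y a ∈ V := fun a => by
      have : a ∈ V.comap y.toRingHom := by rw [hO]; trivial
      exact this
    rw [mul_left_comm]
    exact mul_mem_nonunits (h1 h) (ht' _ (h1 t))
  let Q : Plk ℂ F := ⟨V.comap y.toRingHom, fun c => by
    change y (algebraMap ℂ F c) ∈ V
    rw [y.commutes, IsScalarTower.algebraMap_apply ℂ K (AlgebraicClosure K), hV]
    exact hc c, hO⟩
  have hQ : ∀ a : F, a = 0 ∨ 0 ≤ P019P.ord Q a → y a ∈ V := fun a ha =>
    (P019P.mem_iff_ord Q a).2 ha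
  obtain ⟨s, -, hs⟩ := P019P.exists_unif Q
  have hsn : ∀ c : ℂ, s ≠ algebraMap ℂ F c := P025H492.nc_of_ord (P := Q) (by omega)
  obtain ⟨D, hD, -⟩ := Crr.exists_ddx hsn
  have hD0 : D ≠ 0 := fun e => by rw [e] at hD; exact zero_ne_one hD
  haveI := P019P.CFld_finite (trans_of_nc hsn)
  have h2 : y (h * D t) ∈ V := by
    refine hQ _ ?_
    by_cases h0 : h = 0
    · exact Or.inl (by rw [h0, zero_mul])
    refine Or.inr ?_
    have h3 := (P019P.mem_LL.1 hh).resolve_left h0 Q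
    rw [P025H492.wdv_apply ht] at h3
    rw [P019P.ord_mul Q h0 (P025H492.der_ne_zero hD0 ht), P025H492.ord_D_eq_wd hD0 ht,
      P025H492.ordD_eq hD0 hs, hD, P019P.ord_one]
    omega
  rw [chain (ex δ) y hD t, ← mul_assoc (y h), ← map_mul, mul_left_comm]
  exact mul_mem_nonunits h2 (ht' _ (hQ s (Or.inr (by omega))))

/-- The trace of a regular form is regular. -/
theorem form_mem (P : Place K) (hc : ∀ c : ℂ, algebraMap ℂ K c ∈ P.ring)
    {δ : Derivation ℂ K K} (hδ : RegDer P δ) {t : F} (ht : ∀ c : ℂ, t ≠ algebraMap ℂ F c) {h : F}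
    (hh : h ∈ LL ℂ (wdv ℂ t)) {Y : Finset (F →ₐ[ℂ] AlgebraicClosure K)} {b : K}
    (hb : algebraMap K _ b = ∑ y ∈ Y, y h * ex δ (y t)) : b ∈ P.ring := by
  obtain ⟨V, hV⟩ := exists_valSub (L := AlgebraicClosure K) P
  obtain ⟨π, hπ0, hπ⟩ := Pl.exists_ord_eq_one P
  have h1 : algebraMap K (AlgebraicClosure K) (π * b) ∈ V.nonunits := by
    rw [map_mul, hb, Finset.mul_sum]
    exact sum_mem fun y _ => term_mem P hc V hV hδ hπ0 (by omega) ht hh y
  by_cases h0 : b = 0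
  · rw [h0]; exact zero_mem _
  rw [ValuationSubring.mem_nonunits_iff_or, map_eq_zero, ← map_inv₀, hV] at h1
  have h2 := Pl.ord_pos_of_inv_notMem P (h1.resolve_left (mul_ne_zero hπ0 h0))
  rw [Pl.ord_mul P hπ0 h0] at h2
  exact (Pl.ord_nonneg_iff P h0).1 (by omega)

/-- A form on the derivations: linear over `K`. -/
def Lin (ω : Derivation ℂ K K → K) : Prop := ∀ (δ δ₁ δ₂ : Derivation ℂ K K) (p q : K),
  (∀ a, δ a = p * δ₁ a + q * δ₂ a) → ω δ = p * ω δ₁ + q * ω δ₂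

theorem coord_two {y : Fin 2 → K} {d : Fin 2 → Derivation ℂ K K} (hd : Coord y d)
    (δ : Derivation ℂ K K) (a : K) : δ a = δ (y 0) * d 0 a + δ (y 1) * d 1 a := by
  rw [hd.expand δ a, Fin.sum_univ_two]

/-- Without two-forms the product of two regular forms is zero. -/
theorem wedge_zero {S : Surf K} (hS : S.All) (hp : H0 S.kap = ⊥) {ω ω' : Derivation ℂ K K → K}
    (hl : Lin ω) (hl' : Lin ω')
    (hr : ∀ (C : Crv S.W) δ, RegDer C.pl δ → ω δ ∈ C.pl.ring ∧ ω' δ ∈ C.pl.ring)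
    (δ₁ δ₂ : Derivation ℂ K K) : ω δ₁ * ω' δ₂ = ω δ₂ * ω' δ₁ := by
  obtain ⟨d, hd⟩ := exists_coord (SB.trb S.model.td S.indep)
  have key : ∀ δ₁ δ₂, ω δ₁ * ω' δ₂ - ω δ₂ * ω' δ₁ = (ω (d 0) * ω' (d 1) - ω (d 1) * ω' (d 0)) *
      wedge (S.x 1 / S.x 0) (S.x 2 / S.x 0) δ₁ δ₂ := by
    intro δ₁ δ₂
    rw [hl δ₁ _ _ _ _ (coord_two hd δ₁), hl δ₂ _ _ _ _ (coord_two hd δ₂),
      hl' δ₁ _ _ _ _ (coord_two hd δ₁), hl' δ₂ _ _ _ _ (coord_two hd δ₂), wedge]
    simp only [Matrix.cons_val_zero, Matrix.cons_val_one, Matrix.cons_val_fin_one]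
    ring
  have h0 : ω (d 0) * ω' (d 1) - ω (d 1) * ω' (d 0) ∈ H0 S.kap := by
    by_cases hc : ω (d 0) * ω' (d 1) - ω (d 1) * ω' (d 0) = 0
    · exact Or.inl hc
    refine Or.inr fun C _ => ?_
    obtain ⟨e₁, e₂, h1, h2, h3, h4⟩ := (hS.least _ _ S.indep C).1
    have h5 : ω e₁ * ω' e₂ - ω e₂ * ω' e₁ ∈ C.pl.ring :=
      sub_mem (mul_mem (hr C e₁ h1).1 (hr C e₂ h2).2) (mul_mem (hr C e₂ h2).1 (hr C e₁ h1).2)
    have h6 := Pl.ord_nonneg_of_mem C.pl h5
    rw [key, Pl.ord_mul _ hc h3, h4] at h6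
    exact h6
  rw [hp, Submodule.mem_bot] at h0
  rw [← sub_eq_zero, key, h0, zero_mul]

/-- Coordinates whose first member is a given transcendental element. -/
theorem exists_coord_with {y : Fin 2 → K} {d : Fin 2 → Derivation ℂ K K} (hd : Coord y d) {u : K}
    (hu : Transcendental ℂ u) : ∃ (v : K) (e₀ e₁ : Derivation ℂ K K), e₀ u = 1 ∧ e₀ v = 0 ∧
      e₁ u = 0 ∧ e₁ v = 1 ∧ ∀ (δ : Derivation ℂ K K) (a : K), δ a = δ u * e₀ a + δ v * e₁ a := by
  obtain ⟨e, he⟩ := exists_der_one hu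
  have d00 : d 0 (y 0) = 1 := by simpa using hd.dual 0 0
  have d01 : d 0 (y 1) = 0 := by simpa using hd.dual 0 1
  have d10 : d 1 (y 0) = 0 := by simpa using hd.dual 1 0
  have d11 : d 1 (y 1) = 1 := by simpa using hd.dual 1 1
  by_cases h0 : d 0 u = 0
  · have h1 : d 1 u ≠ 0 := fun h1 => by
      rw [coord_two hd e u, h0, h1, mul_zero, mul_zero, add_zero] at he
      exact zero_ne_one he
    refine ⟨y 0, (d 1 u)⁻¹ • d 1, d 0, ?_, ?_, h0, d00, fun δ a => ?_⟩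
    · rw [Derivation.smul_apply, smul_eq_mul, inv_mul_cancel₀ h1]
    · rw [Derivation.smul_apply, d10, smul_zero]
    · rw [Derivation.smul_apply, smul_eq_mul, coord_two hd δ a, coord_two hd δ u, h0]
      field_simp
      ring
  · refine ⟨y 1, (d 0 u)⁻¹ • d 0, d 1 - (d 1 u / d 0 u) • d 0, ?_, ?_, ?_, ?_, fun δ a => ?_⟩
    · rw [Derivation.smul_apply, smul_eq_mul, inv_mul_cancel₀ h0]
    · rw [Derivation.smul_apply, d01, smul_zero]
    · rw [Derivation.sub_apply, Derivation.smul_apply, smul_eq_mul, div_mul_cancel₀ _ h0, sub_self]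
    · rw [Derivation.sub_apply, Derivation.smul_apply, d01, d11, smul_zero, sub_zero]
    · rw [Derivation.sub_apply, Derivation.smul_apply, Derivation.smul_apply, smul_eq_mul,
        smul_eq_mul, coord_two hd δ a, coord_two hd δ u]
      field_simp
      ring

/-- The kernel of a coordinate derivation is a function field of one variable. -/
theorem cff_ker [Algebra.EssFiniteType ℂ K] {u v : K} {e₀ e₁ : Derivation ℂ K K}
    (hu : Transcendental ℂ u) (h1 : e₁ u = 0) (h2 : e₁ v = 1)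
    (h : ∀ (δ : Derivation ℂ K K) (a : K), δ a = δ u * e₀ a + δ v * e₁ a) :
    CFF ℂ (kerF e₁) := by
  let x : kerF e₁ := ⟨u, h1⟩
  refine ⟨inferInstance, x, ?_, ?_⟩
  · exact (transcendental_algebraMap_iff (algebraMap (kerF e₁) K).injective).1 hu
  have hv : Transcendental (kerF e₁) v := fun hv => by
    rw [der_alg e₁ (fun e : kerF e₁ => e.2) hv] at h2
    exact zero_ne_one h2
  haveI : IsScalarTower ℂ (ℂ⟮x⟯)⟮v⟯ K := IsScalarTower.of_algebraMap_eq fun _ => rfl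
  haveI : Algebra.IsAlgebraic (ℂ⟮x⟯)⟮v⟯ K := ⟨fun z => by
    by_contra hz
    obtain ⟨e, he⟩ := exists_der_one (k := (ℂ⟮x⟯)⟮v⟯) hz
    have e1 : e u = 0 := e.map_algebraMap
      (algebraMap ℂ⟮x⟯ (ℂ⟮x⟯)⟮v⟯ ⟨x, mem_adjoin_simple_self ℂ x⟩)
    have e2 : e v = 0 := e.map_algebraMap ⟨v, mem_adjoin_simple_self _ v⟩
    have h3 := h (e.restrictScalars ℂ) z
    rw [Derivation.restrictScalars_apply, Derivation.restrictScalars_apply,
      Derivation.restrictScalars_apply, he, e1, e2, zero_mul, zero_mul, add_zero] at h3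
    exact one_ne_zero h3⟩
  haveI : Algebra.EssFiniteType (ℂ⟮x⟯)⟮v⟯ K := Algebra.EssFiniteType.of_comp ℂ _ K
  haveI : FiniteDimensional (ℂ⟮x⟯)⟮v⟯ K := Algebra.finite_of_essFiniteType_of_isAlgebraic
  exact finite_of_trans hv

theorem essFin {S : Surf K} (hS : S.All) : Algebra.EssFiniteType ℂ K := by
  classical
  haveI := hS.findim
  haveI : Algebra.EssFiniteType ℂ S.F :=
    essFiniteType_iff.2 ⟨{S.x 1 / S.x 0, S.x 2 / S.x 0}, by simp [Surf.F]⟩
  exact Algebra.EssFiniteType.comp ℂ S.F K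

end Vale.Agent.P297Y.Alb
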