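import Vale.Agent.P297Z.Diff.Coord
import Vale.Agent.P297Z.Surf.Ord
import Mathlib.RingTheory.DedekindDomain.IntegralClosure
import Mathlib.RingTheory.DedekindDomain.AdicValuation

/-! A derivation which preserves a discrete valuation ring has poles of order less than one on
the valuation rings of the algebraic extensions. -/

set_option linter.all false

namespace Vale.Agent.P297Y

open Vale.Agent.P297 (Place)
open Vale.Agent.P297Z _root_.P297Z.Diff IsDedekindDomain

variable {K L : Type} [Field K] [Algebra ℂ K] [Field L] [Algebra ℂ L] [Algebra K L]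
  [IsScalarTower ℂ K L]

/-- A place has an extension to every extension field. -/
theorem exists_valSub (P : Place K) :
    ∃ V : ValuationSubring L, ∀ a : K, algebraMap K L a ∈ V ↔ a ∈ P.ring := by
  haveI := P.dvr
  let f : P.ring →+* L := (algebraMap K L).comp P.ring.subtype
  obtain ⟨V, hV⟩ := (LocalSubring.range f).exists_le_valuationSubring
  have h1 : ∀ a : K, a ∈ P.ring → algebraMap K L a ∈ V := fun a ha =>
    hV.1 (show algebraMap K L a ∈ f.range from ⟨⟨a, ha⟩, rfl⟩)
  refine ⟨V, fun a => ⟨fun ha => ?_, h1 a⟩⟩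
  have h2 : P.ring ≤ V.comap (algebraMap K L) := fun a ha => h1 a ha
  have h3 : V.comap (algebraMap K L) ≠ ⊤ := by
    intro h
    obtain ⟨π, hπ0, hπ⟩ := Pl.exists_ord_eq_one P
    have hm : π ∈ P.ring := (Pl.ord_nonneg_iff P hπ0).1 (by omega)
    have h4 : algebraMap K L π⁻¹ ∈ V := by
      have : π⁻¹ ∈ V.comap (algebraMap K L) := by rw [h]; trivial
      exact this
    obtain ⟨hle, hloc⟩ := LocalSubring.le_def.1 hV
    have h5 : IsUnit (Subring.inclusion hle ⟨algebraMap K L π, ⟨⟨π, hm⟩, rfl⟩⟩) := by
      refine IsUnit.of_mul_eq_one ⟨algebraMap K L π⁻¹, h4⟩ (Subtype.ext ?_)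
      change algebraMap K L π * algebraMap K L π⁻¹ = 1
      rw [← map_mul, mul_inv_cancel₀ hπ0, map_one]
    obtain ⟨⟨_, ⟨b, rfl⟩⟩, hb⟩ := (hloc.1 _ h5).exists_right_inv
    have h6 : algebraMap K L (π * b) = 1 := by
      rw [map_mul]
      exact congrArg Subtype.val hb
    have h7 : π * b = 1 := (algebraMap K L).injective (by rw [h6, map_one])
    have h8 : π⁻¹ ∈ P.ring := by
      rw [inv_eq_of_mul_eq_one_right h7]
      exact b.2
    have h9 := Pl.ord_nonneg_of_mem P h8
    rw [Pl.ord_inv] at h9
    omega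
  rw [Pl.ring_eq_of_le h2 h3]
  exact ha

theorem tame_fin [FiniteDimensional K L] (P : Place K) (hc : ∀ c : ℂ, algebraMap ℂ K c ∈ P.ring)
    (V : ValuationSubring L) (hV : ∀ a : K, algebraMap K L a ∈ V ↔ a ∈ P.ring)
    (d : Derivation ℂ L L) (hd : ∀ a ∈ P.ring, d (algebraMap K L a) ∈ V) {π : K} (hπ0 : π ≠ 0)
    (hπ : 0 < P.ord π) {a : L} (ha : a ∈ V) : algebraMap K L π * d a ∈ V.nonunits := by
  haveI := P.dvr
  haveI : CharZero K := charZero_of_injective_algebraMap (algebraMap ℂ K).injective
  letI : Algebra P.ring L := ((algebraMap K L).comp P.ring.subtype).toAlgebra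
  haveI : IsScalarTower P.ring K L := IsScalarTower.of_algebraMap_eq fun _ => rfl
  let B := integralClosure P.ring L
  haveI : IsDedekindDomain B := IsIntegralClosure.isDedekindDomain P.ring K L B
  haveI : Module.Finite P.ring B := IsIntegralClosure.finite P.ring K L B
  haveI : IsFractionRing B L := IsIntegralClosure.isFractionRing_of_finite_extension P.ring K L B
  have hBV : ∀ b : B, (b : L) ∈ V := fun b => by
    have h1 : IsIntegral V (b : L) := b.2.map_of_comp_eq
      ((algebraMap P.ring L).codRestrict V.toSubring fun r => (hV r).2 r.2) (RingHom.id L) rfl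
    obtain ⟨c, hc⟩ := IsIntegrallyClosed.isIntegral_iff.1 h1
    exact hc ▸ c.2
  have hπm : π ∈ P.ring := (Pl.ord_nonneg_iff P hπ0).1 hπ.le
  have hπL : algebraMap K L π ≠ 0 := (_root_.map_ne_zero _).2 hπ0
  have hπV : algebraMap K L π ∈ V.nonunits := by
    rw [ValuationSubring.mem_nonunits_iff_or]
    refine Or.inr fun h => ?_
    rw [← map_inv₀, hV] at h
    have h9 := Pl.ord_nonneg_of_mem P h
    rw [Pl.ord_inv] at h9
    omega
  let φ : B →+* V := (algebraMap B L).codRestrict V.toSubring hBV
  let πB : B := algebraMap P.ring B ⟨π, hπm⟩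
  let p : HeightOneSpectrum B :=
    { asIdeal := (IsLocalRing.maximalIdeal V).comap φ
      isPrime := Ideal.comap_isPrime _ _
      ne_bot := (Submodule.ne_bot_iff _).2 ⟨πB, by
        change φ πB ∈ IsLocalRing.maximalIdeal V
        rw [← ValuationSubring.coe_mem_nonunits_iff]
        exact hπV, fun h => hπL (congrArg Subtype.val h)⟩ }
  have hp : ∀ b : B, b ∈ p.asIdeal ↔ (b : L) ∈ V.nonunits := fun b => by
    change φ b ∈ IsLocalRing.maximalIdeal V ↔ _
    rw [← ValuationSubring.coe_mem_nonunits_iff]
    rfl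
  let v := p.valuation L
  have hun : ∀ b : B, v b = 1 → (b : L)⁻¹ ∈ V ∧ (b : L) ≠ 0 := fun b hb => by
    have h1 : b ∉ p.asIdeal := (p.valuation_eq_one_iff_notMem (K := L)).1 hb
    rw [hp, ValuationSubring.mem_nonunits_iff_or, not_or, not_not] at h1
    exact ⟨h1.2, h1.1⟩
  have hloc : ∀ z, v z ≤ 1 → ∃ n s : B, v s = 1 ∧ z * s = n := fun z hz => by
    obtain ⟨n, s, h⟩ := p.exists_primeCompl_mul_eq_of_integer z hz
    exact ⟨n, s, (p.valuation_eq_one_iff_notMem (K := L)).2 s.2, h⟩
  have hlt : ∀ z, v z < 1 → z ∈ V.nonunits := fun z hz => by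
    obtain ⟨n, s, hs, h⟩ := hloc z hz.le
    have h1 : v n < 1 := by rw [← h, map_mul, hs, mul_one]; exact hz
    have h2 : (n : L) ∈ V.nonunits := (hp n).1 ((p.valuation_lt_one_iff_mem (K := L) n).1 h1)
    have h3 : z = (s : L)⁻¹ * n := by
      rw [← h, mul_comm z, inv_mul_cancel_left₀ (hun s hs).2]
    rw [h3, ValuationSubring.mem_nonunits_iff, map_mul]
    exact mul_lt_one_of_nonneg_of_lt_one_right ((V.valuation_le_one_iff _).2 (hun s hs).1)
      zero_le ((ValuationSubring.mem_nonunits_iff _).1 h2)
  have hle : ∀ z, z ∈ V → v z ≤ 1 := fun z hz => by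
    by_contra hcon
    have hz0 : z ≠ 0 := by
      rintro rfl
      simp at hcon
    have h1 : v z⁻¹ < 1 := by
      rw [map_inv₀]
      exact inv_lt_one_of_one_lt₀ (not_le.1 hcon)
    have h2 := hlt _ h1
    rw [ValuationSubring.mem_nonunits_iff_or, inv_inv] at h2
    exact h2.elim (fun h => hz0 (inv_eq_zero.1 h)) fun h => h hz
  obtain ⟨t, ht⟩ := p.valuation_exists_uniformizer L
  have hU : Unif v t :=
    { ne := by
        rintro rfl
        rw [map_zero] at ht
        exact WithZero.exp_ne_zero ht.symm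
      lt := by
        change p.valuation L t < 1
        rw [ht, ← WithZero.exp_zero, WithZero.exp_lt_exp]
        omega
      disc := fun z hz => by
        refine ⟨-WithZero.log (v z), ?_⟩
        change _ = p.valuation L t ^ _
        rw [ht, ← WithZero.exp_zsmul]
        simp only [smul_eq_mul, mul_neg, mul_one, neg_neg]
        rw [WithZero.exp_log ((_root_.map_ne_zero v).2 hz)]
      char := fun n hn => by
        have h1 : ∀ c : ℂ, v (algebraMap ℂ L c) ≤ 1 := fun c => hle _ (by
          rw [IsScalarTower.algebraMap_apply ℂ K L, hV]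
          exact hc c)
        have h2 := h1 n
        have h3 := h1 (n : ℂ)⁻¹
        rw [map_inv₀, map_inv₀] at h3
        rw [map_natCast] at h2 h3
        have hn0 : (n : L) ≠ 0 := by
          rw [← map_natCast (algebraMap ℂ L)]
          exact (_root_.map_ne_zero _).2 (Nat.cast_ne_zero.2 hn)
        exact le_antisymm h2 ((inv_le_one₀ (zero_lt_iff.2 ((_root_.map_ne_zero v).2 hn0))).1 h3) }
  let R : Subring L := (algebraMap P.ring L).range
  have hC : Cen v R B.toSubring :=
    { le := fun a ha => hle a (hBV ⟨a, ha⟩)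
      sub := by
        rintro _ ⟨r, rfl⟩
        exact B.algebraMap_mem r
      int := fun a ha => (show IsIntegral P.ring a from ha).map_of_comp_eq
        (algebraMap P.ring L).rangeRestrict (RingHom.id L) rfl
      fg := by
        classical
        obtain ⟨G, hG⟩ := Module.Finite.fg_top (R := P.ring) (M := B)
        refine ⟨G.image Subtype.val, ?_, fun a ha => ?_⟩
        · intro g hg
          obtain ⟨b, -, rfl⟩ := Finset.mem_image.1 (Finset.mem_coe.1 hg)
          exact b.2
        · have h1 : (⟨a, ha⟩ : B) ∈ Submodule.span P.ring (G : Set B) := by rw [hG]; trivial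
          change ((⟨a, ha⟩ : B) : L) ∈ _
          generalize (⟨a, ha⟩ : B) = b at h1
          induction h1 using Submodule.span_induction with
          | mem x hx => exact Subring.subset_closure (Or.inr (by simpa using hx))
          | zero => exact zero_mem _
          | add x y _ _ hx hy => exact add_mem hx hy
          | smul r x _ hx =>
            have h2 : ((r • x : B) : L) = algebraMap P.ring L r * x := Algebra.smul_def r (x : L)
            rw [h2]
            exact mul_mem (Subring.subset_closure (Or.inl ⟨r, rfl⟩)) hx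
      loc := fun z hz => by
        obtain ⟨n, s, hs, h⟩ := hloc z hz
        exact ⟨n, n.2, s, s.2, hs, h⟩ }
  have hvπ : v (algebraMap K L π) < 1 :=
    (p.valuation_lt_one_iff_mem (K := L) πB).2 ((hp πB).2 hπV)
  have hq : v (algebraMap K L π / t) ≤ 1 := by
    rw [map_div₀, div_le_one₀ hU.pos]
    exact hU.le_of_lt hvπ
  have hP : Pres v ((algebraMap K L π / t) • d) := by
    refine hC.pres hU ?_ hπL hvπ ?_
    · rintro _ ⟨r, rfl⟩
      rw [Derivation.smul_apply, smul_eq_mul, map_mul]
      exact mul_le_one' hq (hle _ (hd r r.2))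
    · rw [Derivation.smul_apply, smul_eq_mul, ← mul_assoc, mul_div_cancel₀ _ hU.ne, map_mul]
      exact mul_le_of_le_one_right' (hle _ (hd π hπm))
  refine hlt _ ?_
  have h1 := hP a (hle a ha)
  rw [Derivation.smul_apply, smul_eq_mul] at h1
  have h2 : algebraMap K L π * d a = t * (algebraMap K L π / t * d a) := by
    rw [← mul_assoc, mul_div_cancel₀ _ hU.ne]
  rw [h2, map_mul]
  exact (mul_le_of_le_one_right' h1).trans_lt hU.lt

theorem etale [Algebra.IsAlgebraic K L] : Algebra.FormallyEtale K L := by
  haveI : CharZero K := charZero_of_injective_algebraMap (algebraMap ℂ K).injective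
  exact Algebra.FormallyEtale.of_isSeparable K L

/-- Derivations extend to algebraic extensions. -/
theorem exists_der_ext [Algebra.IsAlgebraic K L] (δ : Derivation ℂ K K) :
    ∃ d : Derivation ℂ L L, ∀ a, d (algebraMap K L a) = algebraMap K L (δ a) := by
  haveI : Algebra.FormallyEtale K L := etale
  exact exists_ext ((Algebra.linearMap K L).compDer δ)

theorem der_unique [Algebra.IsAlgebraic K L] {d d' : Derivation ℂ L L}
    (h : ∀ a, d (algebraMap K L a) = d' (algebraMap K L a)) : d = d' := by
  haveI : Algebra.FormallyEtale K L := etale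
  exact sub_eq_zero.1 (eq_zero_of_base (P := K) fun a => by rw [Derivation.sub_apply, h, sub_self])

/-- The tame bound. -/
theorem tame [Algebra.IsAlgebraic K L] (P : Place K) (hc : ∀ c : ℂ, algebraMap ℂ K c ∈ P.ring)
    (V : ValuationSubring L) (hV : ∀ a : K, algebraMap K L a ∈ V ↔ a ∈ P.ring)
    {δ : Derivation ℂ K K} (hδ : ∀ a ∈ P.ring, δ a ∈ P.ring) {d : Derivation ℂ L L}
    (hd : ∀ a, d (algebraMap K L a) = algebraMap K L (δ a)) {π : K} (hπ0 : π ≠ 0)
    (hπ : 0 < P.ord π) {a : L} (ha : a ∈ V) : algebraMap K L π * d a ∈ V.nonunits := by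
  let E := IntermediateField.adjoin K {a}
  haveI : FiniteDimensional K E :=
    IntermediateField.adjoin.finiteDimensional (Algebra.IsIntegral.isIntegral a)
  haveI : IsScalarTower ℂ E L := IsScalarTower.of_algebraMap_eq fun c => rfl
  obtain ⟨d₁, hd₁⟩ := exists_der_ext (L := E) δ
  obtain ⟨d₂, hd₂⟩ := exists_der_ext (K := E) (L := L) d₁
  have h1 : d = d₂ := der_unique (K := K) fun a => by
    rw [hd, IsScalarTower.algebraMap_apply K E L a, hd₂, hd₁, ← IsScalarTower.algebraMap_apply]
  let a' : E := ⟨a, IntermediateField.mem_adjoin_simple_self K a⟩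
  have h2 := tame_fin P hc (V.comap (algebraMap E L)) (fun b => by
    rw [ValuationSubring.mem_comap, ← IsScalarTower.algebraMap_apply, hV]) d₁ (fun b hb => by
    rw [ValuationSubring.mem_comap, hd₁, ← IsScalarTower.algebraMap_apply, hV]
    exact hδ b hb) hπ0 hπ (a := a') ha
  have h3 : algebraMap K L π * d a = algebraMap E L (algebraMap K E π * d₁ a') := by
    rw [map_mul, ← hd₂, h1, ← IsScalarTower.algebraMap_apply]
    rfl
  rw [h3]
  rw [ValuationSubring.mem_nonunits_iff_or] at h2 ⊢
  rcases h2 with h2 | h2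
  · exact Or.inl (by rw [h2, map_zero])
  · exact Or.inr (by rwa [ValuationSubring.mem_comap, map_inv₀] at h2)

end Vale.Agent.P297Y
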