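import Vale.Agent.P297Y.An.Defs
import Vale.Agent.P297Y.An.Tame

/-! P297, positive irregularity: the fibration is a morphism. -/

set_option linter.all false

open IsLocalRing Polynomial

namespace Vale.Agent.P297Z.Sf

open Vale.Agent.P297 (Place)
open Vale.Agent.P019P (CFF Plk)

namespace Mor

/-- A valuation with a given centre. -/
theorem exists_val {R K : Type*} [CommRing R] [Field K] (q : Ideal R) [q.IsPrime] (f : R →+* K)
    (hker : ∀ a, f a = 0 → a ∈ q) : ∃ V : ValuationSubring K,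
      (∀ a ∈ q, V.valuation (f a) < 1) ∧ ∀ a ∉ q, V.valuation (f a) = 1 := by
  let g : Localization.AtPrime q →+* K := IsLocalization.lift (M := q.primeCompl) (g := f)
    fun y => isUnit_iff_ne_zero.2 fun h => y.2 (hker _ h)
  have hg : ∀ a, g (algebraMap R _ a) = f a := fun a => IsLocalization.lift_eq _ a
  have hI : (maximalIdeal (Localization.AtPrime q)).map g.rangeRestrict ≠ ⊤ := by
    intro h
    have h1 := Ideal.comap_map_of_surjective g.rangeRestrict g.rangeRestrict_surjective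
      (maximalIdeal (Localization.AtPrime q))
    rw [h, Ideal.comap_top, sup_eq_left.2 (le_maximalIdeal (Ideal.comap_ne_top _ bot_ne_top))] at h1
    exact (maximalIdeal.isMaximal _).ne_top h1.symm
  obtain ⟨V, h1, h2⟩ := Ideal.image_subset_nonunits_valuationSubring _ hI
  have h3 : ∀ b, V.valuation (g b) ≤ 1 := fun b => (V.valuation_le_one_iff _).2 (h1 ⟨b, rfl⟩)
  refine ⟨V, fun a ha => ?_, fun a ha => ?_⟩
  · rw [← hg, ← V.mem_nonunits_iff]
    exact h2 ⟨_, Ideal.mem_map_of_mem _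
      ((IsLocalization.AtPrime.to_map_mem_maximal_iff _ q a).2 ha), rfl⟩
  · obtain ⟨b, hb⟩ := (IsLocalization.map_units (Localization.AtPrime q)
      (⟨a, ha⟩ : q.primeCompl)).exists_right_inv
    have h4 : V.valuation (f a) * V.valuation (g b) = 1 := by
      rw [← hg, ← map_mul, ← map_mul, hb, map_one, map_one]
    refine le_antisymm (hg a ▸ h3 _) ?_
    rw [← h4]
    exact mul_le_of_le_one_right' (h3 b)

/-- The relations of a fraction with a point of indeterminacy. -/
theorem ker_le {O K : Type*} [CommRing O] [IsDomain O] [IsLocalRing O]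
    [UniqueFactorizationMonoid O] [Field K] [Algebra O K] [IsFractionRing O K] {h : K}
    (h1 : ¬ IsLocalization.IsInteger O h) (h2 : ¬ IsLocalization.IsInteger O h⁻¹) (Q : O[X])
    (hQ : aeval h Q = 0) : Q ∈ (maximalIdeal O).map C := by
  have h0 : h ≠ 0 := fun e => h1 (e ▸ IsLocalization.isInteger_zero)
  have hg : (IsFractionRing.den O h : O) ∈ maximalIdeal O := fun e =>
    h1 ((IsFractionRing.isUnit_den_iff h).1 e)
  have hf : IsFractionRing.num O h ∈ maximalIdeal O := fun e =>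
    h2 ((IsFractionRing.isUnit_den_iff _).1
      ((IsFractionRing.associated_num_den_inv h h0).isUnit e))
  have hr := IsFractionRing.num_den_reduced O h
  have he := IsFractionRing.mk'_num_den' O h
  have hn : algebraMap O K (IsFractionRing.den O h : O) ≠ 0 :=
    IsFractionRing.to_map_ne_zero_of_mem_nonZeroDivisors (IsFractionRing.den O h).2
  generalize IsFractionRing.num O h = f at *
  generalize (IsFractionRing.den O h : O) = g at *
  have hp : (C g * X - C f).IsPrimitive := fun r hd => by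
    rw [C_dvd_iff_dvd_coeff] at hd
    have a0 := hd 0
    have a1 := hd 1
    simp [coeff_C] at a0 a1
    exact hr a0 a1
  have hd : C g * X - C f ∣ Q := by
    refine hp.dvd_of_fraction_map_dvd_fraction_map (K := K) ?_
    have e : (C g * X - C f).map (algebraMap O K) = C (algebraMap O K g) * (X - C h) := by
      rw [← he, mul_sub, ← C_mul, mul_div_cancel₀ _ hn]
      simp
    rw [e, (isUnit_C.2 hn.isUnit).mul_left_dvd, dvd_iff_isRoot, IsRoot, eval_map_algebraMap, hQ]
  obtain ⟨c, rfl⟩ := hd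
  exact Ideal.mul_mem_right _ _ (sub_mem (Ideal.mul_mem_right _ _ (Ideal.mem_map_of_mem _ hg))
    (Ideal.mem_map_of_mem _ hf))

variable {K : Type} [Field K] [Algebra ℂ K]

/-- The derivation along a variable of the residue field. -/
theorem key (htd : Algebra.trdeg ℂ K = 2) (V : ValuationSubring K) {u s : K}
    (hu : ∀ P : ℂ[X], P ≠ 0 → V.valuation (aeval u P) = 1) (hs0 : s ≠ 0)
    (hs : V.valuation s < 1) : ∃ D : Derivation ℂ K K, D u = 1 ∧ D s = 0 ∧
      ∀ z ∈ V, V.valuation (s * D z) < 1 := by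
  let x : Unit → K := fun _ => u
  let y : Unit ⊕ Unit → K := Sum.elim (fun _ => s) x
  let R₀ := Algebra.adjoin ℂ (Set.range x)
  let R := Algebra.adjoin ℂ (Set.range y)
  have vs : 0 < V.valuation s := zero_lt_iff.2 ((_root_.map_ne_zero _).2 hs0)
  have sR : s ∈ R := Algebra.subset_adjoin ⟨.inl (), rfl⟩
  have uR : u ∈ R := Algebra.subset_adjoin ⟨.inr (), rfl⟩
  have hc : ∀ c : ℂ, algebraMap ℂ K c ∈ V := fun c => by
    by_cases h : c = 0
    · rw [h, map_zero]; exact V.zero_mem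
    · rw [← V.valuation_le_one_iff, ← aeval_C u, hu _ (C_ne_zero.2 h)]
  have f0 : ∀ a : R₀, a ≠ 0 → V.valuation (a : K) = 1 := by
    rintro ⟨a, ha⟩ h
    have ha' := ha
    simp only [R₀, x, Set.range_const, Algebra.adjoin_singleton_eq_range_aeval] at ha'
    obtain ⟨P, rfl⟩ := ha'
    exact hu P fun e => h (Subtype.ext (by simp [e]))
  have f1 : ∀ r ∈ R, r ∈ V := fun r hr => by
    induction hr using Algebra.adjoin_induction with
    | mem r hr =>
      obtain ⟨_ | _, rfl⟩ := hr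
      · exact (V.valuation_le_one_iff _).1 hs.le
      · exact (V.valuation_le_one_iff u).1 (aeval_X (R := ℂ) u ▸ (hu X X_ne_zero).le)
    | algebraMap c => exact hc c
    | add _ _ _ _ h1 h2 => exact V.add_mem _ _ h1 h2
    | mul _ _ _ _ h1 h2 => exact V.mul_mem _ _ h1 h2
  have f2 : ∀ r ∈ R, ∃ p : R₀[X], aeval s p = r := fun r hr => by
    induction hr using Algebra.adjoin_induction with
    | mem r hr =>
      obtain ⟨_ | _, rfl⟩ := hr
      · exact ⟨X, aeval_X _⟩
      · exact ⟨C ⟨u, Algebra.subset_adjoin ⟨(), rfl⟩⟩, aeval_C _ _⟩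
    | algebraMap c => exact ⟨C (algebraMap ℂ R₀ c), aeval_C _ _⟩
    | add _ _ _ _ h1 h2 =>
      obtain ⟨p, rfl⟩ := h1
      obtain ⟨q, rfl⟩ := h2
      exact ⟨p + q, map_add _ _ _⟩
    | mul _ _ _ _ h1 h2 =>
      obtain ⟨p, rfl⟩ := h1
      obtain ⟨q, rfl⟩ := h2
      exact ⟨p * q, map_mul _ _ _⟩
  have le : R₀ ≤ R := Algebra.adjoin_mono (by rintro _ ⟨i, rfl⟩; exact ⟨.inr i, rfl⟩)
  have f3 : ∀ p : R₀[X], aeval s p ∈ R := fun p => by
    rw [aeval_eq_sum_range]
    exact Subalgebra.sum_mem _ fun i _ => R.mul_mem (le (p.coeff i).2) (R.pow_mem sR i)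
  have f4 : ∀ p : R₀[X], p ≠ 0 → ∃ (n : ℕ) (r : K), r ∈ R ∧ V.valuation r = 1 ∧
      aeval s p = s ^ n * r := fun p hp => by
    obtain ⟨q, h1, h2⟩ := exists_eq_pow_rootMultiplicity_mul_and_not_dvd p hp 0
    rw [C_0, sub_zero] at h1 h2
    refine ⟨p.rootMultiplicity 0, aeval s q, f3 q, ?_, by
      conv_lhs => rw [h1, map_mul, map_pow, aeval_X]⟩
    have h3 := f0 _ fun e => h2 (X_dvd_iff.2 e)
    have h4 : V.valuation (aeval s q.divX * s) < V.valuation (q.coeff 0 : K) := by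
      rw [h3, map_mul]
      exact (mul_le_of_le_one_left' ((V.valuation_le_one_iff _).2 (f1 _ (f3 _)))).trans_lt hs
    conv_lhs => rw [← divX_mul_X_add q, map_add, map_mul, aeval_X, aeval_C]
    exact (Valuation.map_add_eq_of_lt_right _ h4).trans h3
  have hy : AlgebraicIndependent ℂ y := by
    refine AlgebraicIndependent.sumElim (algebraicIndependent_unique_type_iff.2 ?_)
      (algebraicIndependent_unique_type_iff.2 ?_)
    · rintro ⟨P, h1, h2⟩
      have h3 := hu P h1
      rw [h2, map_zero] at h3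
      exact zero_ne_one h3
    · rintro ⟨p, h1, h2⟩
      obtain ⟨n, r, -, h3, h4⟩ := f4 p h1
      rw [h2] at h4
      rw [(mul_eq_zero.1 h4.symm).resolve_left (pow_ne_zero n hs0), map_zero] at h3
      exact zero_ne_one h3
  have hb : IsTranscendenceBasis ℂ y :=
    hy.isTranscendenceBasis_of_trdeg_le_of_finite (by simp [htd])
  obtain ⟨d, hd⟩ := P297Z.Diff.exists_coord hb
  have du : d (.inr ()) u = 1 := (hd.dual (.inr ()) (.inr ())).trans (if_pos rfl)
  have ds : d (.inr ()) s = 0 := (hd.dual (.inr ()) (.inl ())).trans (if_neg (by simp))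
  generalize d (.inr ()) = D at du ds
  refine ⟨D, du, ds, fun z hz => ?_⟩
  have f5 : ∀ r ∈ R, D r ∈ R := fun r hr => by
    induction hr using Algebra.adjoin_induction with
    | mem r hr =>
      obtain ⟨_ | _, rfl⟩ := hr
      · exact ds ▸ R.zero_mem
      · exact du ▸ R.one_mem
    | algebraMap c => rw [D.map_algebraMap]; exact R.zero_mem
    | add _ _ _ _ h1 h2 => rw [map_add]; exact R.add_mem h1 h2
    | mul _ _ h1 h2 h3 h4 =>
      rw [D.leibniz]; exact R.add_mem (R.mul_mem h1 h4) (R.mul_mem h2 h3)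
  let L := IntermediateField.adjoin ℂ (Set.range y)
  have : Algebra.IsAlgebraic L K := hb.isAlgebraic_field
  have RL : ∀ r ∈ R, r ∈ L := fun r hr => IntermediateField.algebra_adjoin_le_adjoin _ _ hr
  have dv : ∀ a b : K, D (a / b) = b⁻¹ ^ 2 * (b * D a - a * D b) := fun a b => by
    simpa using D.leibniz_div a b
  have f6 : ∀ z ∈ L, D z ∈ L := fun z hz => by
    obtain ⟨a, ha, b, hb, rfl⟩ := IntermediateField.mem_adjoin_iff_div.1 hz
    rw [dv]
    exact mul_mem (pow_mem (inv_mem (RL _ hb)) 2)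
      (RL _ (R.sub_mem (R.mul_mem hb (f5 _ ha)) (R.mul_mem ha (f5 _ hb))))
  have f7 : ∀ z ∈ L, z ∈ V → z ≠ 0 → ∃ (n : ℕ) (a b : K), a ∈ R ∧ b ∈ R ∧ V.valuation a = 1 ∧
      V.valuation b = 1 ∧ z = s ^ n * (a / b) := fun z hz hV h0 => by
    obtain ⟨a, ha, b, hb, rfl⟩ := IntermediateField.mem_adjoin_iff_div.1 hz
    obtain ⟨p, rfl⟩ := f2 a ha
    obtain ⟨q, rfl⟩ := f2 b hb
    obtain ⟨i, a, a1, a2, a3⟩ := f4 p fun e => h0 (by simp [e])
    obtain ⟨j, b, b1, b2, b3⟩ := f4 q fun e => h0 (by simp [e])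
    rw [a3, b3] at hV ⊢
    rw [← V.valuation_le_one_iff, map_div₀, map_mul, map_mul, a2, b2, mul_one, mul_one, map_pow,
      map_pow, div_le_one₀ (pow_pos vs j), pow_le_pow_iff_right_of_lt_one₀ vs hs] at hV
    obtain ⟨n, rfl⟩ := Nat.exists_eq_add_of_le hV
    refine ⟨n, a, b, a1, b1, a2, b2, ?_⟩
    rw [pow_add, mul_assoc, mul_div_mul_left _ _ (pow_ne_zero j hs0), mul_div_assoc]
  let A := V.comap (algebraMap L K)
  have un : ∀ w : A, IsUnit w ↔ V.valuation ((w : L) : K) = 1 := fun w => by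
    refine ⟨fun h => (V.valuation_eq_one_iff ⟨_, w.2⟩).1 ?_, fun h => ?_⟩
    · obtain ⟨w', hw⟩ := h.exists_right_inv
      exact IsUnit.of_mul_eq_one ⟨_, w'.2⟩ (Subtype.ext (congrArg (fun a : A => ((a : L) : K)) hw))
    · have h0 : (w : L) ≠ 0 := fun e => by simp [e] at h
      refine IsUnit.of_mul_eq_one ⟨(w : L)⁻¹, ?_⟩ (Subtype.ext (mul_inv_cancel₀ h0))
      change (((w : L)⁻¹ : L) : K) ∈ V
      rw [← V.valuation_le_one_iff, IntermediateField.coe_inv, map_inv₀, h, inv_one]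
  let t : A := ⟨⟨s, RL s sR⟩, f1 s sR⟩
  have f8 : ∀ w : A, w ≠ 0 → ∃ (n : ℕ) (c : A), V.valuation ((c : L) : K) = 1 ∧ t ^ n * c = w :=
    fun w h0 => by
      obtain ⟨n, a, b, a1, b1, a2, b2, e⟩ := f7 _ (w : L).2 w.2 fun e =>
        h0 (Subtype.ext (Subtype.ext e))
      have h1 : V.valuation (a / b) = 1 := by rw [map_div₀, a2, b2, div_one]
      exact ⟨n, ⟨⟨a / b, div_mem (RL _ a1) (RL _ b1)⟩, (V.valuation_le_one_iff _).1 h1.le⟩, h1,
        Subtype.ext (Subtype.ext e.symm)⟩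
  have vt : ∀ (n : ℕ) (c : A), V.valuation (((t ^ n * c : A) : L) : K) =
      V.valuation s ^ n * V.valuation ((c : L) : K) := fun n c => by
    rw [← map_pow, ← map_mul]; rfl
  have dvr : IsDiscreteValuationRing A := by
    refine IsDiscreteValuationRing.ofHasUnitMulPowIrreducibleFactorization ⟨t, ⟨fun h => ?_,
      fun a b h => ?_⟩, fun {w} h0 => ?_⟩
    · exact hs.ne ((un t).1 h)
    · have t0 : t ≠ 0 := fun e => hs0 (congrArg (fun a : A => ((a : L) : K)) e)
      obtain ⟨i, c, c1, rfl⟩ := f8 a (left_ne_zero_of_mul (h ▸ t0))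
      obtain ⟨j, c', c2, rfl⟩ := f8 b (right_ne_zero_of_mul (h ▸ t0))
      have h1 : V.valuation s ^ 1 = V.valuation s ^ (i + j) := by
        have h2 : V.valuation s = V.valuation (((t ^ i * c : A) : L) : K) *
            V.valuation (((t ^ j * c' : A) : L) : K) := by
          rw [← map_mul]
          exact congrArg (fun a : A => V.valuation ((a : L) : K)) h
        rw [vt, vt, c1, c2, mul_one, mul_one, ← pow_add] at h2
        rwa [pow_one]
      have h2 := (pow_right_inj₀ vs hs.ne).1 h1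
      rw [un, un, vt, vt, c1, c2]
      obtain rfl | rfl : i = 0 ∨ j = 0 := by omega
      · exact Or.inl (by simp)
      · exact Or.inr (by simp)
    · obtain ⟨n, c, c1, rfl⟩ := f8 w h0
      exact ⟨n, ((un c).2 c1).unit, rfl⟩
  let δ : Derivation ℂ L L :=
    { toFun := fun a => ⟨D a, f6 _ a.2⟩
      map_add' := fun a b => Subtype.ext (map_add D _ _)
      map_smul' := fun c a => Subtype.ext (D.map_smul c _)
      map_one_eq_zero' := Subtype.ext D.map_one_eq_zero
      leibniz' := fun a b => Subtype.ext (D.leibniz _ _) }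
  refine V.mem_nonunits_iff.1 (P297Y.tame (K := L) (L := K) ⟨A, dvr⟩ (fun c => hc c) V
    (fun _ => Iff.rfl) (δ := δ) (fun a ha => ?_) (fun _ => rfl) (π := t)
    (fun e => hs0 (congrArg Subtype.val e)) (Pl.ord_pos_of_inv_notMem _ fun h => ?_) hz)
  · change D (a : K) ∈ V
    by_cases h0 : (a : K) = 0
    · rw [h0, map_zero]; exact V.zero_mem
    obtain ⟨n, a, b, a1, b1, -, b2, e⟩ := f7 _ a.2 ha h0
    rw [e, D.leibniz, D.leibniz_pow, ds, dv]
    simp only [smul_zero, add_zero, smul_eq_mul, mul_zero]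
    refine V.mul_mem _ _ (f1 _ (R.pow_mem sR n)) (V.mul_mem _ _ ?_
      (f1 _ (R.sub_mem (R.mul_mem b1 (f5 _ a1)) (R.mul_mem a1 (f5 _ b1)))))
    rw [← V.valuation_le_one_iff, map_pow, map_inv₀, b2, inv_one, one_pow]
  · exact (V.mem_nonunits_iff_or.1 (V.mem_nonunits_iff.2 hs)).elim hs0 fun h' => h' h

/-- A valuation centred at a point of indeterminacy, trivial on the base field. -/
theorem exists_V {S : Surf K} (hS : S.All) (k : IntermediateField ℂ K) [CFF ℂ k] (x : Pt S.W)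
    {h : k} (h1 : (h : K) ∉ x.ring) (h2 : (h : K)⁻¹ ∉ x.ring) : ∃ V : ValuationSubring K,
      (∀ a ∈ x.ring, a ∈ V) ∧ (∀ a ∈ maximalIdeal x.ring, V.valuation (a : K) < 1) ∧
      ∀ z : k, (z : K) ∈ V := by
  have := hS.ufd x
  have := hS.frac x
  have := Ideal.isPrime_map_C_of_isPrime (P := maximalIdeal x.ring)
  obtain ⟨V, v1, v2⟩ := exists_val ((maximalIdeal x.ring).map C) (aeval (h : K)).toRingHom
    (ker_le (fun ⟨a, e⟩ => h1 (e ▸ a.2)) fun ⟨a, e⟩ => h2 (e ▸ a.2))
  have v3 : ∀ P : ℂ[X], P ≠ 0 → V.valuation (aeval (h : K) P) = 1 := fun P hP => by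
    have e := v2 (P.map (algebraMap ℂ x.ring)) fun hm => hP (by
      ext n
      have := Ideal.mem_map_C_iff.1 hm n
      rw [coeff_map, Pt.mem_max] at this
      exact Pt.van_const this)
    exact (congrArg _ (aeval_map_algebraMap x.ring (h : K) P)).symm.trans e
  refine ⟨V, fun a ha => ?_, fun a ha => ?_, fun z => ?_⟩
  · rw [← V.valuation_le_one_iff]
    by_cases hm : C (⟨a, ha⟩ : x.ring) ∈ (maximalIdeal x.ring).map C
    · simpa using (v1 _ hm).le
    · simpa using (v2 _ hm).le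
  · simpa using v1 _ (Ideal.mem_map_of_mem C ha)
  · obtain ⟨-, hf⟩ := P019P.finite_of_notMem (k := ℂ) (x := h) fun c e =>
      h1 (e ▸ x.ring.algebraMap_mem c)
    let F := IntermediateField.adjoin ℂ {h}
    let ι : F →+* K := (algebraMap k K).comp (algebraMap F k)
    have hι : ∀ a : F, ι a ∈ V.toSubring := by
      rintro ⟨a, ha⟩
      obtain ⟨p, q, rfl⟩ := (IntermediateField.mem_adjoin_simple_iff _ _).1 ha
      change algebraMap k K (aeval h p / aeval h q) ∈ V
      rw [map_div₀, ← aeval_algebraMap_apply, ← aeval_algebraMap_apply, ← V.valuation_le_one_iff]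
      by_cases hp : p = 0
      · simp [hp]
      by_cases hq : q = 0
      · simp [hq]
      exact ((map_div₀ _ _ _).trans (by rw [← div_one (1 : V.ValueGroup)]; congr 1 <;>
        apply v3 <;> assumption)).le
    have hz : IsIntegral V (algebraMap k K z) :=
      (Algebra.IsIntegral.isIntegral (R := F) z).map_of_comp_eq (ι.codRestrict V.toSubring hι)
        (algebraMap k K) rfl
    obtain ⟨a, e⟩ := (IsIntegrallyClosed.isIntegral_iff (R := V)).1 hz
    exact (show (a : K) = z from e) ▸ a.2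

/-- No point of indeterminacy. -/
theorem mem_or (hP : PAR) {S : Surf K} (hS : S.All) (φ : Fib S) (x : Pt S.W) (h : φ.k) :
    (h : K) ∈ x.ring ∨ (h : K)⁻¹ ∈ x.ring := by
  by_contra hc
  rw [not_or] at hc
  obtain ⟨V, v1, v2, v3⟩ := exists_V hS φ.k x hc.1 hc.2
  have v4 : ∀ z : φ.k, z ≠ 0 → V.valuation (z : K) = 1 := fun z hz =>
    (V.valuation_eq_one_iff ⟨_, v3 z⟩).1 (IsUnit.of_mul_eq_one ⟨_, v3 z⁻¹⟩
      (Subtype.ext (congrArg (fun a : φ.k => (a : K)) (mul_inv_cancel₀ hz))))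
  have main : ∀ s t : x.ring, maximalIdeal x.ring = Ideal.span {s, t} → (t : K) / s ∉ V := by
    intro s t hm hz
    obtain ⟨d₁, d₂, -, p2, p3, -, -, -, p4⟩ := hP K S hS x s t hm
    have s0 : (s : K) ≠ 0 := fun e => by rw [e, map_zero] at p3; exact zero_ne_one p3
    obtain ⟨D, D1, D2, D3⟩ := key S.model.td V (u := φ.u) (s := s) (fun P hP => by
      have e : aeval (φ.u : K) P = ((aeval φ.u P : φ.k) : K) := aeval_algebraMap_apply K φ.u P
      rw [e]
      exact v4 _ fun e' => (P019P.finite_of_notMem φ.u_nc).1 ⟨P, hP, e'⟩) s0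
      (v2 _ (hm ▸ Ideal.subset_span (by simp)))
    have hB : (φ.a : K) * d₂ φ.u ∈ x.ring := (hS.normal x _).1 (Or.inr fun C hC => by
      simpa using Pl.ord_nonneg_of_mem _ (φ.reg C d₂ (p2 C hC).2))
    have e1 : D t = s * D (t / s) := by
      conv_lhs => rw [← mul_div_cancel₀ (t : K) s0, D.leibniz, D2]
      simp
    have e2 := p4 D φ.u
    rw [D1, D2, zero_mul, zero_add, e1] at e2
    have e3 : (φ.a : K) = (φ.a : K) * d₂ φ.u * (s * D (t / s)) := by linear_combination φ.a * e2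
    have e4 := v4 _ φ.a_ne
    rw [e3, map_mul] at e4
    exact ((mul_le_of_le_one_left' ((V.valuation_le_one_iff _).2 (v1 _ hB))).trans_lt
      (D3 _ hz)).ne e4
  obtain ⟨w, hw, hx⟩ := x.exists_in
  obtain ⟨-, -, -, -, s, t, -, -, hm⟩ := hS.gens x w hw hx
  rcases V.mem_or_inv_mem ((t : K) / s) with h1 | h1
  · exact main s t hm h1
  · exact main t s (by rw [hm, Set.pair_comm]) (by rwa [inv_div] at h1)

end Mor

/-- The fibration is a morphism. -/
theorem mor (hP : PAR) : MOR := by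
  intro K _ _ S hS φ
  have H : ∀ x : Pt S.W, ∃ P : Plk ℂ φ.k, ∀ f : φ.k, f ∈ P.1 ↔ (f : K) ∈ x.ring := fun x => by
    let A : ValuationSubring φ.k := ValuationSubring.ofSubring
      (x.ring.toSubring.comap (algebraMap φ.k K)) (Mor.mem_or hP hS φ x)
    have hA : ∀ f : φ.k, f ∈ A ↔ (f : K) ∈ x.ring := fun _ => Iff.rfl
    refine ⟨⟨A, fun c => x.ring.algebraMap_mem c, fun e => ?_⟩, hA⟩
    have h1 : ∀ z : φ.k, (z : K) ∈ x.ring := fun z => (hA z).1 (by rw [e]; trivial)
    obtain ⟨c, -, h2 | h2⟩ := hS.val x _ (h1 φ.u)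
    · exact φ.u_nc c (Subtype.ext (sub_eq_zero.1 h2))
    · exact h2 (h1 (φ.u - algebraMap ℂ φ.k c)⁻¹)
  choose π hπ using H
  refine ⟨π, fun x f => ⟨fun h => (hπ x f).1 ((P019P.mem_iff_ord _ f).2 (Or.inr h)), fun h =>
    ⟨(hπ x f).1 ((P019P.mem_iff_ord _ f).2 (Or.inr h.le)), Or.inr fun h1 => ?_⟩⟩⟩
  rcases (P019P.mem_iff_ord _ f⁻¹).1 ((hπ x f⁻¹).2 h1) with h2 | h2
  · rw [inv_eq_zero.1 h2, P019P.ord_zero] at h
    exact h.false
  · rw [P019P.ord_inv] at h2
    omega

end Vale.Agent.P297Z.Sf
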