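import Vale.Agent.P297Y.An.Alb2

/-! The regular form and the fibration. -/

set_option linter.all false

namespace Vale.Agent.P297Z.Sf

open Polynomial IntermediateField _root_.P297Z.Diff Vale.Agent.P297Y Vale.Agent.P297Y.Alb
open Vale.Agent.P019P (CFF Plk LL)
open P025H492 (wdv)

theorem alb : ALB := by
  intro K _ _ S hS hp hY
  obtain ⟨F, _, _, _, t, Y, ht, ⟨y₀, hy₀⟩, hgal, hind⟩ := hY
  have inj : Function.Injective (algebraMap K (AlgebraicClosure K)) :=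
    (algebraMap K (AlgebraicClosure K)).injective
  choose ω hω using fun h δ => exists_form hgal t h δ
  have hl : ∀ h, Lin (ω h) := fun h δ δ₁ δ₂ p q e => inj (by
    rw [map_add, map_mul, map_mul, hω, hω, hω, Finset.mul_sum, Finset.mul_sum,
      ← Finset.sum_add_distrib]
    refine Finset.sum_congr rfl fun y _ => ?_
    rw [ex_comb e]
    ring)
  have hr : ∀ h ∈ LL ℂ (wdv ℂ t), ∀ (C : Crv S.W) δ, RegDer C.pl δ → ω h δ ∈ C.pl.ring :=
    fun h hh C δ hδ => form_mem C.pl C.const_mem hδ ht hh (hω h δ)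
  have hk : ∀ δ, (∀ h ∈ LL ℂ (wdv ℂ t), ω h δ = 0) → ∀ y ∈ Y, ex δ (y t) = 0 := fun δ h0 =>
    hind (fun y => ex δ (y t)) fun h hh => by
      rw [← map_zero (algebraMap K (AlgebraicClosure K)), ← h0 h hh, hω]
      exact Finset.sum_congr rfl fun y _ => mul_comm _ _
  have hz : Transcendental ℂ (y₀ t) := trans_of_nc fun c hc =>
    ht c (y₀.toRingHom.injective (by
      change y₀ t = y₀ (algebraMap ℂ F c)
      rw [hc, y₀.commutes]))
  have hi : IsIntegral K (y₀ t) := Algebra.IsIntegral.isIntegral _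
  obtain ⟨i, hu⟩ := exists_coeff hi hz
  have hU : ∀ δ, ex δ (y₀ t) = 0 → δ ((minpoly K (y₀ t)).coeff i) = 0 := fun δ h0 =>
    der_coeff (ex_map δ) hi h0 i
  generalize (minpoly K (y₀ t)).coeff i = u at hu hU
  obtain ⟨d, hd⟩ := exists_coord (SB.trb S.model.td S.indep)
  obtain ⟨v, e₀, e₁, e00, e01, e10, e11, he⟩ := exists_coord_with hd hu
  obtain ⟨h₀, hh₀, ha⟩ : ∃ h ∈ LL ℂ (wdv ℂ t), ω h e₀ ≠ 0 := by
    by_contra hne
    have h1 := hU e₀ (hk e₀ (fun h hh => by_contra fun h2 => hne ⟨h, hh, h2⟩) y₀ hy₀)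
    rw [e00] at h1
    exact one_ne_zero h1
  have hδ : ∀ a, (ω h₀ e₀ • e₁ - ω h₀ e₁ • e₀) a = ω h₀ e₀ * e₁ a + -ω h₀ e₁ * e₀ a := fun a => by
    rw [Derivation.sub_apply, Derivation.smul_apply, Derivation.smul_apply, smul_eq_mul,
      smul_eq_mul]
    ring
  have h1 : ∀ y ∈ Y, ex (ω h₀ e₀ • e₁ - ω h₀ e₁ • e₀) (y t) = 0 := hk _ fun h hh => by
    have h2 := wedge_zero hS hp (hl h₀) (hl h)
      (fun C δ hδ => ⟨hr h₀ hh₀ C δ hδ, hr h hh C δ hδ⟩) e₀ e₁
    rw [hl h _ _ _ _ _ hδ, h2]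
    ring
  have hb : ω h₀ e₁ = 0 := by
    have h2 := hU _ (h1 y₀ hy₀)
    rw [hδ, e10, e00, mul_zero, mul_one, zero_add] at h2
    exact neg_eq_zero.1 h2
  have h3 : ∀ y ∈ Y, ex e₁ (y t) = 0 := fun y hy => by
    have h2 := h1 y hy
    rw [ex_comb hδ, hb, neg_zero, map_zero, zero_mul, add_zero] at h2
    exact (mul_eq_zero.1 h2).resolve_left ((map_ne_zero_iff _ inj).2 ha)
  have hcomm : ∀ a, e₁ (e₀ a) = e₀ (e₁ a) := fun a => by
    have h2 := he ⁅e₁, e₀⁆ a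
    simp only [Derivation.commutator_apply, e00, e01, e10, e11, map_zero,
      Derivation.map_one_eq_zero, sub_self, zero_mul, add_zero] at h2
    exact sub_eq_zero.1 h2
  have h4 : e₁ (ω h₀ e₀) = 0 := inj (by
    obtain ⟨D, hD, -⟩ := Crr.exists_ddx ht
    haveI := P019P.CFld_finite (trans_of_nc ht)
    rw [← ex_map, hω, map_sum, map_zero]
    refine Finset.sum_eq_zero fun y hy => ?_
    rw [Derivation.leibniz, ex_comm hcomm, chain (ex e₁) y hD h₀, h3 y hy, map_zero, mul_zero,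
      smul_zero, smul_zero, add_zero])
  haveI := essFin hS
  haveI := cff_ker hu e10 e11 he
  refine ⟨⟨kerF e₁, fun z hz => der_alg e₁ (fun e : kerF e₁ => e.2) hz, ⟨u, e10⟩,
    ⟨ω h₀ e₀, h4⟩, fun c hc => nc_of_trans hu c (congrArg Subtype.val hc),
    fun h0 => ha (congrArg Subtype.val h0), fun C δ hδ => ?_⟩⟩
  have h5 := hr h₀ hh₀ C δ hδ
  rw [hl h₀ δ _ _ _ _ (he δ), hb, mul_zero, add_zero, mul_comm] at h5
  exact h5

end Vale.Agent.P297Z.Sf
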