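import Vale.Agent.P297Y.An.Defs
import Vale.Agent.P271.Gen.Newton

/-! Approximation of formal solutions of polynomial equations by algebraic power series. -/

set_option linter.all false

open Polynomial

namespace Vale.Agent.P297Z.Sf

namespace Art

attribute [local instance] FractionRing.liftAlgebra in
/-- A primitive element of a finite extension of domains. -/
theorem prim {R A : Type} [CommRing R] [IsDomain R] [CommRing A] [IsDomain A] [Algebra R A]
    [FaithfulSMul R A] [Module.Finite R A] [CharZero R] :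
    ∃ y : A, ∀ a : A, ∃ h : R, h ≠ 0 ∧ ∃ Q : R[X], aeval y Q = h • a := by
  let K := FractionRing R
  let L := FractionRing A
  haveI : FiniteDimensional K L := .of_isLocalization R A (nonZeroDivisors R)
  haveI : CharZero K := IsFractionRing.charZero_of_isFractionRing R
  obtain ⟨α, hα⟩ := Field.exists_primitive_element K L
  obtain ⟨a, b, hb, rfl⟩ := IsFractionRing.div_surjective (A := A) α
  have hb0 : b ≠ 0 := nonZeroDivisors.ne_zero hb
  obtain ⟨y, d, hd, hy⟩ := Algebra.IsAlgebraic.exists_smul_eq_mul R a hb0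
  have hbL : algebraMap A L b ≠ 0 := by
    rwa [Ne, map_eq_zero_iff _ (IsFractionRing.injective A L)]
  have hdK : algebraMap R K d ≠ 0 := by
    rwa [Ne, map_eq_zero_iff _ (IsFractionRing.injective R K)]
  have e : algebraMap A L a / algebraMap A L b =
      (algebraMap R K d)⁻¹ • algebraMap A L y := by
    rw [eq_inv_smul_iff₀ hdK, algebraMap_smul, div_eq_mul_inv, ← smul_mul_assoc,
      ← mul_inv_cancel_right₀ hbL (algebraMap A L y), mul_comm (algebraMap A L y), ← map_mul, ← hy,
      Algebra.smul_def, Algebra.smul_def, map_mul, ← IsScalarTower.algebraMap_apply]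
  have htop : Algebra.adjoin K {algebraMap A L y} = ⊤ := by
    have h1 := IntermediateField.adjoin_simple_toSubalgebra_of_isAlgebraic
      (Algebra.IsAlgebraic.isAlgebraic (R := K) (algebraMap A L a / algebraMap A L b))
    rw [hα, IntermediateField.top_toSubalgebra] at h1
    rw [eq_top_iff, h1, Algebra.adjoin_le_iff, Set.singleton_subset_iff, e]
    exact Subalgebra.smul_mem _ (Algebra.self_mem_adjoin_singleton _ _) _
  refine ⟨y, fun z => ?_⟩
  obtain ⟨t, ht⟩ := multiple_mem_adjoin_of_mem_localization_adjoin (nonZeroDivisors R) K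
    {algebraMap A L y} (algebraMap A L z) (by rw [htop]; trivial)
  rw [Algebra.adjoin_singleton_eq_range_aeval] at ht
  obtain ⟨Q, hQ⟩ := ht
  refine ⟨t, nonZeroDivisors.ne_zero t.2, Q, IsFractionRing.injective A L ?_⟩
  rw [← aeval_algebraMap_apply]
  refine hQ.trans ?_
  rw [Submonoid.smul_def, Algebra.smul_def, Algebra.smul_def, map_mul,
    ← IsScalarTower.algebraMap_apply]

/-- The lemma of Newton. -/
theorem newton (F : (PowerSeries ℂ)[X]) (y : PowerSeries ℂ) (m : ℕ) (hm : 0 < m)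
    (h : F.derivative.eval y ^ 2 * PowerSeries.X ^ m ∣ F.eval y) :
    ∃ y', F.eval y' = 0 ∧ PowerSeries.X ^ m ∣ y' - y := by
  obtain ⟨v, hv⟩ := h
  set d := F.derivative.eval y with hd
  set t := d * PowerSeries.X ^ m with ht
  obtain ⟨H, hH⟩ := Polynomial.binomExpansion (F.map C) (C y) (C t * X)
  have hc : PowerSeries.constantCoeff (PowerSeries.X ^ m : PowerSeries ℂ) = 0 := by
    rw [map_pow, PowerSeries.constantCoeff_X, zero_pow hm.ne']
  obtain ⟨w, hw, -⟩ := P271.Gen.exists_root (σ := Unit) (k := ℂ)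
    (F := C v + X + C (PowerSeries.X ^ m) * (H * X ^ 2)) (y0 := - PowerSeries.constantCoeff v)
    (by
      rw [eval₂_add, eval₂_add, eval₂_mul, eval₂_C, eval₂_C, eval₂_X]
      erw [hc]
      rw [zero_mul, add_zero]
      exact add_neg_cancel _)
    (by
      rw [derivative_add, derivative_add, derivative_C, derivative_X, derivative_C_mul, eval₂_add,
        eval₂_add, eval₂_mul, eval₂_C]
      erw [hc]
      simp)
  refine ⟨y + t * w, ?_, ⟨d * w, by rw [ht]; ring⟩⟩
  have h1 := congrArg (evalRingHom w) hH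
  have h2 : ∀ (G : (PowerSeries ℂ)[X]) (p : (PowerSeries ℂ)[X]),
      evalRingHom w ((G.map C).eval p) = G.eval (p.eval w) := by
    intro G p
    rw [eval_map, hom_eval₂]
    have : (evalRingHom w).comp C = RingHom.id _ := by ext1; simp
    rw [this]; rfl
  rw [derivative_map, h2, map_add (evalRingHom w), map_add (evalRingHom w),
    map_mul (evalRingHom w), h2, h2] at h1
  simp only [eval_add, eval_mul, eval_C, eval_X, coe_evalRingHom, eval_pow] at h1 hw
  rw [h1, ← hd, hv]
  have : d ^ 2 * PowerSeries.X ^ m * v + d * (t * w) + eval w H * (t * w) ^ 2 =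
      d ^ 2 * PowerSeries.X ^ m * (v + w + PowerSeries.X ^ m * (eval w H * w ^ 2)) := by
    rw [ht]; ring
  rw [this]
  erw [hw]
  rw [mul_zero]

theorem close {d : PowerSeries ℂ} (hd : d ≠ 0) : ∃ e : ℕ, ∀ d' : PowerSeries ℂ,
    PowerSeries.X ^ (e + 1) ∣ d' - d → d' ∣ PowerSeries.X ^ e := by
  refine ⟨d.order.toNat, fun d' ⟨q, hq⟩ => ?_⟩
  have h1 := PowerSeries.X_pow_order_mul_divXPowOrder (f := d)
  have h2 : d' = PowerSeries.X ^ d.order.toNat * (d.divXPowOrder + PowerSeries.X * q) := by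
    rw [mul_add, h1, ← mul_assoc, ← pow_succ, ← hq]; ring
  have h3 : IsUnit (d.divXPowOrder + PowerSeries.X * q) := by
    rw [PowerSeries.isUnit_iff_constantCoeff]
    simp only [map_add, map_mul, PowerSeries.constantCoeff_X, zero_mul, add_zero]
    exact (PowerSeries.constantCoeff_divXPowOrder_eq_zero_iff.not.2 hd |> Ne.isUnit)
  rw [h2]
  exact (h3.mul_right_dvd).2 dvd_rfl

theorem cong {R P : Type} [CommRing R] [CommRing P] (f g : R →+* P) (u y y' : P)
    (h : ∀ r, u ∣ f r - g r) (hy : u ∣ y - y') (Q : R[X]) :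
    u ∣ Q.eval₂ f y - Q.eval₂ g y' := by
  induction Q using Polynomial.induction_on with
  | C a => simpa using h a
  | add p q hp hq =>
    rw [eval₂_add, eval₂_add]
    have := dvd_add hp hq
    convert this using 1; ring
  | monomial n a ih =>
    rw [pow_succ, ← mul_assoc, eval₂_mul_X, eval₂_mul_X]
    have := dvd_add (ih.mul_right y) (hy.mul_left (eval₂ g y' (C a * X ^ n)))
    convert this using 1; ring

theorem congM {σ P : Type} [CommRing P] [Algebra ℂ P] (u : P) (z z' : σ → P)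
    (h : ∀ j, u ∣ z j - z' j) (r : MvPolynomial σ ℂ) :
    u ∣ MvPolynomial.aeval z r - MvPolynomial.aeval z' r := by
  induction r using MvPolynomial.induction_on with
  | C a => simp
  | add p q hp hq =>
    rw [map_add, map_add]
    have := dvd_add hp hq
    convert this using 1; ring
  | mul_X p j ih =>
    rw [map_mul, map_mul, MvPolynomial.aeval_X, MvPolynomial.aeval_X]
    have := dvd_add (ih.mul_right (z j)) ((h j).mul_left (MvPolynomial.aeval z' p))
    convert this using 1; ring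

theorem clear {ι T P : Type} [CommRing T] [Algebra ℂ T] [CommRing P] [Algebra ℂ P]
    (f g : T →ₐ[ℂ] P) (h : T) (Q : ι → T) (c c' : ι → P) (h1 : ∀ i, f (Q i) = f h * c i)
    (h2 : ∀ i, g (Q i) = g h * c' i) (p : MvPolynomial ι ℂ) :
    ∃ (n : ℕ) (t : T), f t = f h ^ n * MvPolynomial.aeval c p ∧
      g t = g h ^ n * MvPolynomial.aeval c' p := by
  induction p using MvPolynomial.induction_on with
  | C a => exact ⟨0, algebraMap ℂ T a, by simp, by simp⟩
  | add p q hp hq =>
    obtain ⟨n, t, a1, a2⟩ := hp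
    obtain ⟨n', t', b1, b2⟩ := hq
    refine ⟨n + n', h ^ n' * t + h ^ n * t', ?_, ?_⟩
    · simp only [map_add, map_mul, map_pow, a1, b1]; ring
    · simp only [map_add, map_mul, map_pow, a2, b2]; ring
  | mul_X p j ih =>
    obtain ⟨n, t, a1, a2⟩ := ih
    refine ⟨n + 1, t * Q j, ?_, ?_⟩
    · simp only [map_mul, a1, h1, MvPolynomial.aeval_X]; ring
    · simp only [map_mul, a2, h2, MvPolynomial.aeval_X]; ring

/-- The presentation of the algebra generated by finitely many power series. -/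
theorem pres {ι P : Type} [Fintype ι] [CommRing P] [IsDomain P] [Algebra ℂ P] (c : ι → P) :
    ∃ (s : ℕ) (z : Fin s → P) (y : P) (F : (MvPolynomial (Fin s) ℂ)[X])
      (h : MvPolynomial (Fin s) ℂ) (Q : ι → (MvPolynomial (Fin s) ℂ)[X]),
      F.Monic ∧ MvPolynomial.aeval z h ≠ 0 ∧
      F.derivative.eval₂ (MvPolynomial.aeval z).toRingHom y ≠ 0 ∧
      (∀ G : (MvPolynomial (Fin s) ℂ)[X], G.eval₂ (MvPolynomial.aeval z).toRingHom y = 0 ↔ F ∣ G) ∧
      ∀ i, (Q i).eval₂ (MvPolynomial.aeval z).toRingHom y = MvPolynomial.aeval z h * c i := by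
  classical
  let A := Algebra.adjoin ℂ (Set.range c)
  haveI : Algebra.FiniteType ℂ A :=
    (Subalgebra.fg_iff_finiteType _).1 (Subalgebra.fg_def.2 ⟨_, Set.finite_range c, rfl⟩)
  obtain ⟨s, g, hg, hf⟩ := exists_finite_inj_algHom_of_fg ℂ A
  let R := MvPolynomial (Fin s) ℂ
  letI : Algebra R A := g.toRingHom.toAlgebra
  haveI : Module.Finite R A := hf
  haveI : FaithfulSMul R A := (faithfulSMul_iff_algebraMap_injective R A).2 hg
  obtain ⟨y, hy⟩ := prim (R := R) (A := A)
  choose h hh Q hQ using hy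
  let c0 : ι → A := fun i => ⟨c i, Algebra.subset_adjoin ⟨i, rfl⟩⟩
  let z : Fin s → P := fun j => (g (MvPolynomial.X j) : P)
  have hz : ∀ r : R, MvPolynomial.aeval z r = (g r : P) := by
    intro r
    have : MvPolynomial.aeval z = A.val.comp g := MvPolynomial.algHom_ext fun j => by simp [z]
    rw [this]; rfl
  have he : ∀ G : R[X], G.eval₂ (MvPolynomial.aeval z).toRingHom (y : P) = (aeval y G : A) := by
    intro G
    have := hom_eval₂ G (algebraMap R A) A.val.toRingHom y
    refine Eq.trans ?_ this.symm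
    congr 1
    exact RingHom.ext hz
  have hint : IsIntegral R y := Algebra.IsIntegral.isIntegral y
  have hk : ∀ G : R[X], G.eval₂ (MvPolynomial.aeval z).toRingHom (y : P) = 0 ↔ minpoly R y ∣ G := by
    intro G
    rw [he, ← minpoly.isIntegrallyClosed_dvd_iff hint, ZeroMemClass.coe_eq_zero]
  refine ⟨s, z, y, minpoly R y, ∏ i, h (c0 i),
    fun i => C (∏ j ∈ Finset.univ.erase i, h (c0 j)) * Q (c0 i), minpoly.monic hint, ?_, ?_, hk,
    fun i => ?_⟩
  · rw [hz, Ne, ZeroMemClass.coe_eq_zero, map_eq_zero_iff _ hg]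
    exact Finset.prod_ne_zero_iff.2 fun i _ => hh _
  · rw [Ne, hk]
    intro hd
    have h1 := eq_zero_of_dvd_of_degree_lt hd (degree_derivative_lt (minpoly.ne_zero hint))
    have h2 := natDegree_eq_zero_of_derivative_eq_zero h1
    have h3 := minpoly.natDegree_pos hint
    omega
  · rw [eval₂_mul, eval₂_C, he, hQ, ← Finset.prod_erase_mul _ _ (Finset.mem_univ i), map_mul,
      mul_assoc, hz (h (c0 i))]
    rfl

end Art

open Art in
theorem art : ART := by
  intro ι _ c N
  obtain ⟨s, z, y, F, h, Q, hF, hh, hd, hk, hQ⟩ := pres c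
  obtain ⟨e, he⟩ := close hd
  obtain ⟨e', he'⟩ := close hh
  set m := N + e' + 1 with hm
  set M := m + 2 * e with hM
  let zp : Fin s → ℂ[X] := fun j => PowerSeries.trunc M (z j)
  let z' : Fin s → PowerSeries ℂ := fun j => (zp j : PowerSeries ℂ)
  let ψ := (MvPolynomial.aeval (R := ℂ) z).toRingHom
  let ψ' := (MvPolynomial.aeval (R := ℂ) z').toRingHom
  have hψ : ∀ r, PowerSeries.X ^ M ∣ ψ' r - ψ r := fun r =>
    congM _ z' z (fun j => by
      rw [← dvd_neg, neg_sub]
      exact ⟨_, sub_eq_iff_eq_add.2 (PowerSeries.eq_X_pow_mul_shift_add_trunc M (z j))⟩) r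
  have hd' : F.derivative.eval₂ ψ' y ∣ PowerSeries.X ^ e :=
    he _ ((pow_dvd_pow _ (by omega)).trans (cong ψ' ψ _ y y hψ (by simp) _))
  have hh' : ψ' h ∣ PowerSeries.X ^ e' := he' _ ((pow_dvd_pow _ (by omega)).trans (hψ h))
  have hF0 : PowerSeries.X ^ M ∣ F.eval₂ ψ' y := by
    have := cong ψ' ψ _ y y hψ (by simp) F
    rwa [(hk F).2 dvd_rfl, sub_zero] at this
  obtain ⟨y', hy', hyy⟩ := newton (F.map ψ') y m (by omega) (by
    rw [derivative_map, eval_map, eval_map]
    refine dvd_trans ?_ hF0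
    rw [hM, pow_add _ m, mul_comm, mul_comm 2, pow_mul]
    exact mul_dvd_mul_left _ (pow_dvd_pow_of_dvd hd' 2))
  rw [eval_map] at hy'
  have hψm : ∀ r, PowerSeries.X ^ m ∣ ψ' r - ψ r := fun r =>
    (pow_dvd_pow _ (by omega)).trans (hψ r)
  have hex : ∀ i, ∃ c' : PowerSeries ℂ, PowerSeries.X ^ N ∣ c' - c i ∧
      (Q i).eval₂ ψ' y' = ψ' h * c' := by
    intro i
    obtain ⟨k, hk'⟩ := hh'
    have h1 := dvd_sub (cong ψ' ψ _ y' y hψm hyy (Q i)) ((hψm h).mul_right (c i))
    rw [hQ i] at h1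
    obtain ⟨v, hv⟩ := h1
    refine ⟨c i + PowerSeries.X ^ N * (PowerSeries.X * k * v), by simp, ?_⟩
    have h2 : (Q i).eval₂ ψ' y' = ψ' h * c i + PowerSeries.X ^ m * v := by
      rw [← hv]
      change _ = ψ' h * c i + (_ - ψ h * c i - _)
      ring
    rw [h2, hm, pow_succ, pow_add, hk']
    ring
  choose c' hc1 hc2 using hex
  have hh0 : ψ' h ≠ 0 := fun h0 => by
    rw [h0, zero_dvd_iff] at hh'
    exact pow_ne_zero _ PowerSeries.X_ne_zero hh'
  refine ⟨c', fun i => ?_, hc1, fun p hp => ?_⟩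
  · letI : Algebra ℂ[X] (PowerSeries ℂ) := Polynomial.coeToPowerSeries.ringHom.toAlgebra
    let χ := (MvPolynomial.aeval (R := ℂ) zp).toRingHom
    have hχ : ψ' = (algebraMap ℂ[X] (PowerSeries ℂ)).comp χ := by
      refine MvPolynomial.ringHom_ext (fun a => ?_) fun j => ?_
      · simp [ψ', χ, RingHom.algebraMap_toAlgebra]
      · simp [ψ', χ, RingHom.algebraMap_toAlgebra, z']
    have hi : IsIntegral ℂ[X] y' := ⟨F.map χ, hF.map χ, by rw [eval₂_map, ← hχ, hy']⟩
    have hi2 : IsIntegral ℂ[X] (χ h • c' i) := by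
      have : χ h • c' i = aeval y' ((Q i).map χ) := by
        rw [aeval_def, eval₂_map, ← hχ, hc2, Algebra.smul_def, hχ]; rfl
      rw [this]
      exact IsIntegral.of_mem_of_fg _ hi.fg_adjoin_singleton _ (aeval_mem_adjoin_singleton _ _)
    have hne : χ h ≠ 0 := fun h0 => hh0 (by rw [hχ, RingHom.comp_apply, h0, map_zero])
    obtain ⟨G, hG, hG2⟩ := IsAlgebraic.of_smul_isIntegral
      (by rwa [isNilpotent_iff_eq_zero]) hi2
    exact ⟨G, hG, hG2⟩
  · let f : (MvPolynomial (Fin s) ℂ)[X] →ₐ[ℂ] PowerSeries ℂ :=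
      eval₂AlgHom (MvPolynomial.aeval z) y fun _ => Commute.all _ _
    let g : (MvPolynomial (Fin s) ℂ)[X] →ₐ[ℂ] PowerSeries ℂ :=
      eval₂AlgHom (MvPolynomial.aeval z') y' fun _ => Commute.all _ _
    have hf : ∀ G, f G = G.eval₂ ψ y := fun G => rfl
    have hg : ∀ G, g G = G.eval₂ ψ' y' := fun G => rfl
    obtain ⟨n, t, a1, a2⟩ := clear f g (C h) Q c c'
      (fun i => by rw [hf, hf, eval₂_C]; exact hQ i) (fun i => by rw [hg, hg, eval₂_C, hc2]) p
    rw [hp, mul_zero, hf] at a1
    obtain ⟨q, rfl⟩ := (hk t).1 a1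
    rw [map_mul, hg F, hy', zero_mul, hg, eval₂_C] at a2
    exact (mul_eq_zero.1 a2.symm).resolve_left (pow_ne_zero _ hh0)

end Vale.Agent.P297Z.Sf
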