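import Vale.Agent.P297Y.An.Cor
import Vale.Agent.P025.R2.H816.BC4
import Vale.Agent.P025.R2.H492.Ext1
import Vale.Agent.P025.R2.H492.Der

/-! Constant and non constant places of a constant field extension, the rigid effective divisor
in a non constant class, and the independence of its points. -/

set_option linter.all false

open TensorProduct

namespace Vale.Agent.P297Y.CY

open Vale.Agent.P019P P025H492

variable {C F L Ω : Type} [Field C] [Field F] [Field L] [Field Ω] [Algebra C F] [Algebra C L]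
  [Algebra C Ω] [Algebra F Ω] [Algebra L Ω] [IsScalarTower C F Ω] [IsScalarTower C L Ω]

/-- automorphisms of the constants lift to automorphisms which fix `F` -/
theorem exists_lift (h : P025H941.IsBC C F L Ω) (σ : L ≃ₐ[C] L) :
    ∃ τ : Ω ≃+* Ω, (∀ a, τ (algebraMap L Ω a) = algebraMap L Ω (σ a)) ∧
      ∀ f, τ (algebraMap F Ω f) = algebraMap F Ω f := by
  letI : Algebra (F ⊗[C] L) Ω := (P025H941.can C F L Ω).toRingHom.toAlgebra
  have hc : ∀ a : F ⊗[C] L, algebraMap (F ⊗[C] L) Ω a = P025H941.can C F L Ω a := fun _ => rfl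
  haveI : FaithfulSMul (F ⊗[C] L) Ω :=
    (faithfulSMul_iff_algebraMap_injective _ _).2 h.inj
  haveI : IsFractionRing (F ⊗[C] L) Ω := IsFractionRing.of_field _ _ fun z => by
    obtain ⟨a, ha, b, hb, -, hz⟩ := h.gen z
    obtain ⟨a', rfl⟩ := P025H941.exists_can (C := C) ha
    obtain ⟨b', rfl⟩ := P025H941.exists_can (C := C) hb
    exact ⟨a', b', hz⟩
  let e : F ⊗[C] L ≃ₐ[C] F ⊗[C] L := Algebra.TensorProduct.congr AlgEquiv.refl σ
  have he : ∀ (x : F) (a : L), e.toRingEquiv (x ⊗ₜ a) = x ⊗ₜ σ a := fun x a => by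
    show e (x ⊗ₜ a) = _
    simp [e]
  have key : ∀ (x : F) (a : L),
      IsFractionRing.ringEquivOfRingEquiv (K := Ω) (L := Ω) e.toRingEquiv
        (algebraMap F Ω x * algebraMap L Ω a) = algebraMap F Ω x * algebraMap L Ω (σ a) := by
    intro x a
    rw [← P025H941.can_tmul (C := C), ← hc, IsFractionRing.ringEquivOfRingEquiv_algebraMap, he, hc,
      P025H941.can_tmul]
  refine ⟨IsFractionRing.ringEquivOfRingEquiv (K := Ω) (L := Ω) e.toRingEquiv, fun a => ?_,
    fun f => ?_⟩
  · simpa using key 1 a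
  · simpa using key f 1

variable [CFF C F] [CFF L Ω]

/-- the place above a place of `F` -/
noncomputable def up (h : P025H941.IsBC C F L Ω) (P : Plk C F) : Plk L Ω :=
  (h.to816.exists_unique_above P).choose

theorem mem_up (h : P025H941.IsBC C F L Ω) (P : Plk C F) (z : F) :
    z ∈ P.1 ↔ algebraMap F Ω z ∈ (up h P).1 :=
  (h.to816.exists_unique_above P).choose_spec.1 z

theorem ord_up (h : P025H941.IsBC C F L Ω) (P : Plk C F) (z : F) :
    ord (up h P) (algebraMap F Ω z) = ord P z :=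
  (h.to816.exists_unique_above P).choose_spec.2.1 z

theorem eq_up (h : P025H941.IsBC C F L Ω) {P : Plk C F} {y : Plk L Ω}
    (h1 : ∀ z, z ∈ P.1 → algebraMap F Ω z ∈ y.1) (h2 : Cst F y) : y = up h P := by
  refine (h.to816.exists_unique_above P).choose_spec.2.2 y h1 ?_
  obtain ⟨f, hf⟩ := h2
  refine ⟨f, ?_, hf⟩
  rintro rfl
  rw [map_zero, ord_zero] at hf
  exact hf rfl

theorem up_inj (h : P025H941.IsBC C F L Ω) : Function.Injective (up h) := by
  intro P Q hPQ
  refine Plk.eq_of_le fun z hz => ?_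
  rw [mem_up h, ← hPQ, ← mem_up h]
  exact hz

theorem cst_up (h : P025H941.IsBC C F L Ω) (P : Plk C F) : Cst F (up h P) := by
  obtain ⟨π, -, hπ⟩ := exists_unif P
  refine ⟨π, ?_⟩
  rw [ord_up, hπ]
  exact one_ne_zero

theorem cst_iff (h : P025H941.IsBC C F L Ω) {y : Plk L Ω} : Cst F y ↔ ∃ P, up h P = y := by
  constructor
  · intro hy
    rcases P025H816.restr h.to816.comm y with h1 | ⟨P, e, -, h1, -⟩
    · obtain ⟨f, hf⟩ := hy
      exact absurd (h1 f) hf
    · exact ⟨P, (eq_up h (fun z hz => (h1 z).1 hz) hy).symm⟩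
  · rintro ⟨P, rfl⟩
    exact cst_up h P

omit [Algebra C F] [Algebra C L] [Algebra C Ω] [IsScalarTower C F Ω] [IsScalarTower C L Ω]
  [CFF C F] in
theorem ord_of_not_cst {y : Plk L Ω} (hy : ¬ Cst F y) (f : F) : ord y (algebraMap F Ω f) = 0 := by
  by_contra h
  exact hy ⟨f, h⟩

section aut

variable {τ : Ω ≃+* Ω} {σ : L ≃+* L} (hτ : ∀ a, τ (algebraMap L Ω a) = algebraMap L Ω (σ a))

theorem plEquiv_up (h : P025H941.IsBC C F L Ω) (hF : ∀ f, τ (algebraMap F Ω f) = algebraMap F Ω f)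
    (P : Plk C F) : plEquiv τ σ hτ (up h P) = up h P := by
  refine eq_up h (fun z hz => ?_) ?_
  · rw [AuxFAct.mem_plEquiv, ← hF, τ.symm_apply_apply, ← mem_up]
    exact hz
  · obtain ⟨f, hf⟩ := cst_up h P
    refine ⟨f, ?_⟩
    rw [← hF, ord_plEquiv]
    exact hf

theorem cst_plEquiv (hF : ∀ f, τ (algebraMap F Ω f) = algebraMap F Ω f) (y : Plk L Ω) :
    Cst F (plEquiv τ σ hτ y) ↔ Cst F y := by
  refine exists_congr fun f => ?_
  rw [← hF, ord_plEquiv, hF]

theorem inv_of_cst (h : P025H941.IsBC C F L Ω) (hF : ∀ f, τ (algebraMap F Ω f) = algebraMap F Ω f)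
    {E : Plk L Ω →₀ ℤ} (hE : ∀ y, E y ≠ 0 → Cst F y) (y : Plk L Ω) :
    E (plEquiv τ σ hτ y) = E y := by
  by_cases hy : Cst F y
  · obtain ⟨P, rfl⟩ := (cst_iff h).1 hy
    rw [plEquiv_up hτ h hF]
  · have h1 : E y = 0 := by
      by_contra h1
      exact hy (hE y h1)
    have h2 : E (plEquiv τ σ hτ y) = 0 := by
      by_contra h2
      exact hy ((cst_plEquiv hτ hF y).1 (hE _ h2))
    rw [h1, h2]

/-- the effective divisor of an invariant rigid class is invariant -/
theorem inv_of_rigid {A : Plk L Ω →₀ ℤ} (hA : ∀ y, A (plEquiv τ σ hτ y) = A y)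
    (hl : Module.finrank L (LL L A) = 1) {z : Ω} (hz0 : z ≠ 0) (hz : z ∈ LL L A) (y : Plk L Ω) :
    ord (plEquiv τ σ hτ y) z = ord y z := by
  have h1 : τ z ∈ LL L A := by
    refine mem_LL.2 (Or.inr fun y' => ?_)
    obtain ⟨y, rfl⟩ := (plEquiv τ σ hτ).surjective y'
    rw [ord_plEquiv, hA]
    exact (mem_LL.1 hz).resolve_left hz0 y
  have h2 : (⟨z, hz⟩ : LL L A) ≠ 0 := fun h => hz0 (congrArg Subtype.val h)
  obtain ⟨a, ha⟩ := (finrank_eq_one_iff_of_nonzero' _ h2).1 hl ⟨τ z, h1⟩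
  have h3 : algebraMap L Ω a * z = τ z := by
    rw [← Algebra.smul_def]
    exact congrArg Subtype.val ha
  have h4 : algebraMap L Ω a ≠ 0 := by
    intro h
    rw [h, zero_mul] at h3
    exact hz0 ((map_eq_zero τ).1 h3.symm)
  rw [← ord_plEquiv τ σ hτ y z, ← h3, ord_mul _ h4 hz0, ord_const, zero_add]

theorem vl_plEquiv {y : Plk L Ω} {z : Ω} (hz : 0 ≤ ord y z) :
    vl (plEquiv τ σ hτ y) (τ z) = σ (vl y z) := by
  refine vl_eq ?_
  rw [← hτ, ← map_sub]
  rcases mem_Mge.1 (sub_vl_mem hz) with h | h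
  · rw [h, map_zero]
    exact zero_mem _
  · refine mem_Mge.2 (Or.inr ?_)
    rw [ord_plEquiv]
    exact h

end aut

/-- the rigid effective divisor in a non constant class -/
theorem exists_rigid (h : P025H941.IsBC C F L Ω) {D : Plk L Ω →₀ ℤ}
    (hD : ∀ E : Plk L Ω →₀ ℤ, (∀ y, E y ≠ 0 → Cst F y) → D - E ∉ prn L Ω) :
    ∃ R : Plk L Ω →₀ ℤ, 0 ≤ R ∧ R ≠ 0 ∧ Module.finrank L (LL L R) = 1 ∧
      (∀ y, R y ≠ 0 → ¬ Cst F y) ∧
      ∀ (τ : Ω ≃+* Ω) (σ : L ≃+* L) (hτ : ∀ a, τ (algebraMap L Ω a) = algebraMap L Ω (σ a)),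
        (∀ f, τ (algebraMap F Ω f) = algebraMap F Ω f) → (∀ y, D (plEquiv τ σ hτ y) = D y) →
        ∀ y, R (plEquiv τ σ hτ y) = R y := by
  classical
  obtain ⟨P₀⟩ := nonempty_Plk C F
  have hsgl : ∀ (P : Plk C F) (n : ℤ) (y : Plk L Ω),
      (Finsupp.single (up h P) n : Plk L Ω →₀ ℤ) y ≠ 0 → Cst F y := by
    intro P n y hy
    rw [Finsupp.single_apply] at hy
    split_ifs at hy with h1
    · exact h1 ▸ cst_up h P
    · exact absurd rfl hy
  obtain ⟨n, ⟨E, hE, hn, hl⟩, hmin⟩ := Int.exists_least_of_bdd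
    (P := fun n => ∃ E : Plk L Ω →₀ ℤ, (∀ y, E y ≠ 0 → Cst F y) ∧ dg E = n ∧
      0 < Module.finrank L (LL L (D + E)))
    ⟨-dg D, by
      rintro n ⟨E, -, rfl, hl⟩
      by_contra hc
      rw [l_eq_zero (by rw [map_add]; omega)] at hl
      exact lt_irrefl _ hl⟩
    ⟨gen L Ω - dg D, Finsupp.single (up h P₀) (gen L Ω - dg D), hsgl P₀ _, dg_sgl _ _, by
      have h1 := RR (D + Finsupp.single (up h P₀) (gen L Ω - dg D))
      rw [map_add, dg_sgl] at h1
      omega⟩
  have hzero : ∀ P : Plk C F,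
      Module.finrank L (LL L (D + E - Finsupp.single (up h P) 1)) = 0 := by
    intro P
    by_contra hc
    have h1 := hmin (n - 1) ⟨E - Finsupp.single (up h P) 1, fun y hy => by
      by_contra hy'
      have h2 : E y = 0 := by
        by_contra h2
        exact hy' (hE y h2)
      have h3 : (Finsupp.single (up h P) 1 : Plk L Ω →₀ ℤ) y = 0 := by
        by_contra h3
        exact hy' (hsgl P 1 y h3)
      exact hy (by rw [Finsupp.sub_apply, h2, h3, sub_zero]), by rw [map_sub, hn, dg_sgl], by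
        rw [← add_sub_assoc]
        omega⟩
    omega
  have hone : Module.finrank L (LL L (D + E)) = 1 := by
    have h1 := l_sub_le (k := L) (D := D + E - Finsupp.single (up h P₀) 1) (E := D + E) (by
      intro y
      rw [Finsupp.sub_apply, Finsupp.single_apply]
      split_ifs <;> omega)
    rw [hzero, map_sub, dg_sgl] at h1
    omega
  obtain ⟨z, hz0, hz⟩ := exists_ne_zero_of_l hl
  have hzm : z ∈ LL L (D + E) := mem_LL.2 (Or.inr fun y => by
    have h1 := hz y
    rw [Finsupp.add_apply, dv_apply, Finsupp.zero_apply] at h1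
    omega)
  refine ⟨D + E + dv L z, hz, fun h0 => ?_, by rw [l_add_dv _ hz0, hone], fun y hy hc => ?_,
    fun τ σ hτ hF hDi y => ?_⟩
  · refine hD (-E) (fun y hy => hE y fun h1 => hy (by rw [Finsupp.neg_apply, h1, neg_zero]))
      ⟨z⁻¹, inv_ne_zero hz0, ?_⟩
    rw [dv_inv, sub_neg_eq_add]
    exact eq_neg_of_add_eq_zero_left h0
  · obtain ⟨P, rfl⟩ := (cst_iff h).1 hc
    have h1 : z ∈ LL L (D + E - Finsupp.single (up h P) 1) := by
      refine mem_LL.2 (Or.inr fun y => ?_)
      have h2 := hz y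
      rw [Finsupp.add_apply, dv_apply, Finsupp.zero_apply] at h2
      rw [Finsupp.sub_apply, Finsupp.single_apply]
      split_ifs with h3
      · subst h3
        rw [Finsupp.add_apply, dv_apply] at hy
        omega
      · omega
    rw [Submodule.finrank_eq_zero.1 (hzero P)] at h1
    exact hz0 h1
  · have hA : ∀ y, (D + E) (plEquiv τ σ hτ y) = (D + E) y := fun y => by
      rw [Finsupp.add_apply, Finsupp.add_apply, hDi, inv_of_cst hτ h hF hE]
    rw [Finsupp.add_apply, Finsupp.add_apply (D + E), hA, dv_apply, dv_apply,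
      inv_of_rigid hτ hA hone hz0 hzm]

/-! ### values -/

section vals

variable {y : Plk L Ω}

theorem ord_nonneg_of_mem {z : Ω} (hz : z ∈ Mge y 0) : 0 ≤ ord y z := by
  rcases mem_Mge.1 hz with h | h
  · rw [h, ord_zero]
  · exact h

theorem vl_add {z w : Ω} (hz : 0 ≤ ord y z) (hw : 0 ≤ ord y w) :
    vl y (z + w) = vl y z + vl y w := by
  refine vl_eq ?_
  rw [map_add, add_sub_add_comm]
  exact add_mem (sub_vl_mem hz) (sub_vl_mem hw)

theorem vl_mul {z w : Ω} (hz : 0 ≤ ord y z) (hw : 0 ≤ ord y w) :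
    vl y (z * w) = vl y z * vl y w := by
  refine vl_eq ?_
  have h1 : z * w - algebraMap L Ω (vl y z * vl y w) =
      z * (w - algebraMap L Ω (vl y w)) + vl y w • (z - algebraMap L Ω (vl y z)) := by
    rw [map_mul, Algebra.smul_def]
    ring
  rw [h1]
  exact add_mem (mul_mem_of_mem (mem_Mge.2 (Or.inr hz)) (sub_vl_mem hw))
    (Submodule.smul_mem _ _ (sub_vl_mem hz))

theorem vl_smul (a : L) {z : Ω} (hz : 0 ≤ ord y z) : vl y (a • z) = a * vl y z := by
  rw [Algebra.smul_def, vl_mul (ord_const y a).ge hz, vl_const]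

theorem vl_zero' : vl y (0 : Ω) = 0 := by
  simpa using vl_const y (0 : L)

end vals

/-- the point of the curve with values in `L` given by a non constant place -/
noncomputable def iota (C F : Type) [Field C] [Field F] [Algebra C F] [Algebra C L] [Algebra C Ω]
    [Algebra F Ω] [IsScalarTower C F Ω] [IsScalarTower C L Ω] (y : Plk L Ω) (hy : ¬ Cst F y) :
    F →ₐ[C] L where
  toFun f := vl y (algebraMap F Ω f)
  map_one' := by simpa using vl_const y (1 : L)
  map_mul' f g := by
    rw [map_mul, vl_mul (ord_of_not_cst hy f).ge (ord_of_not_cst hy g).ge]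
  map_zero' := by rw [map_zero, vl_zero']
  map_add' f g := by
    rw [map_add, vl_add (ord_of_not_cst hy f).ge (ord_of_not_cst hy g).ge]
  commutes' c := by
    rw [← IsScalarTower.algebraMap_apply, IsScalarTower.algebraMap_apply C L Ω, vl_const]

omit [CFF C F] in
theorem iota_apply (y : Plk L Ω) (hy : ¬ Cst F y) (f : F) :
    iota C F y hy f = vl y (algebraMap F Ω f) := rfl

/-! ### independence -/

theorem dg_mapDomain {P Q : Type*} (f : P → Q) (D : P →₀ ℤ) : dg (D.mapDomain f) = dg D := by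
  induction D using Finsupp.induction_linear with
  | zero => simp
  | add D E h1 h2 => rw [Finsupp.mapDomain_add, map_add, map_add, h1, h2]
  | single p n => rw [Finsupp.mapDomain_single, dg_sgl, dg_sgl]

theorem l_can' (k K : Type*) [Field k] [Field K] [Algebra k K] [CFF k K] :
    Module.finrank k (LL k (can k K)) = gen k K := by
  have h1 := RR (0 : Plk k K →₀ ℤ)
  rw [l_zero, sub_zero, map_zero] at h1
  omega

theorem map_mem_LL (h : P025H941.IsBC C F L Ω) {W : Plk C F →₀ ℤ} {f : F} (hf : f ∈ LL C W) :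
    algebraMap F Ω f ∈ LL L (W.mapDomain (up h)) := by
  rcases mem_LL.1 hf with h0 | h1
  · rw [h0, map_zero]
    exact zero_mem _
  refine mem_LL.2 (Or.inr fun y => ?_)
  by_cases hy : Cst F y
  · obtain ⟨P, rfl⟩ := (cst_iff h).1 hy
    rw [Finsupp.mapDomain_apply (up_inj h), ord_up]
    exact h1 P
  · rw [Finsupp.mapDomain_notin_range _ _ (fun hc => hy ((cst_iff h).2 hc)), ord_of_not_cst hy]
    rfl

/-- the pull back of a canonical divisor is canonical, and its sections are spanned by the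
sections over `C` -/
theorem span_can [CharZero C] (h : P025H941.IsBC C F L Ω) {W : Plk C F →₀ ℤ}
    (hdg : dg W = 2 * (gen C F : ℤ) - 2) (hl : Module.finrank C (LL C W) = gen C F) :
    (∃ z : Ω, z ≠ 0 ∧ W.mapDomain (up h) = can L Ω + dv L z) ∧
      LL L (W.mapDomain (up h)) = Submodule.span L (algebraMap F Ω '' (LL C W : Set F)) := by
  have hg := h.to816.gen_eq
  have hle : Submodule.span L (algebraMap F Ω '' (LL C W : Set F)) ≤
      LL L (W.mapDomain (up h)) := by
    rw [Submodule.span_le]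
    rintro _ ⟨f, hf, rfl⟩
    exact map_mem_LL h hf
  haveI : FiniteDimensional L (Submodule.span L (algebraMap F Ω '' (LL C W : Set F))) :=
    Submodule.finiteDimensional_of_le hle
  have h1 : Module.finrank C (LL C W) ≤
      Module.finrank L (Submodule.span L (algebraMap F Ω '' (LL C W : Set F))) :=
    h.to816.finrank_le fun z hz => Submodule.subset_span ⟨z, hz, rfl⟩
  have h2 := Submodule.finrank_mono hle
  have h3 := RR (W.mapDomain (up h))
  rw [dg_mapDomain, hdg] at h3
  obtain ⟨z, hz0, hz⟩ := exists_ne_zero_of_l (k := L) (D := can L Ω - W.mapDomain (up h))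
    (by omega)
  have h4 : W.mapDomain (up h) = can L Ω + dv L z := by
    refine eq_of_le_of_dg_le (fun P => ?_) ?_
    · have h5 := hz P
      rw [Finsupp.add_apply, Finsupp.sub_apply, Finsupp.zero_apply] at h5
      rw [Finsupp.add_apply]
      omega
    · rw [map_add, dg_dv, dg_mapDomain, hdg, dg_can_eq, hg]
      omega
  refine ⟨⟨z, hz0, h4⟩, (Submodule.eq_of_le_of_finrank_le hle ?_).symm⟩
  rw [h4, l_add_dv _ hz0, l_can']
  omega

/-- the points of a rigid effective divisor impose independent conditions -/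
theorem indep [CharZero C] (h : P025H941.IsBC C F L Ω) {W : Plk C F →₀ ℤ}
    (hdg : dg W = 2 * (gen C F : ℤ) - 2) (hl : Module.finrank C (LL C W) = gen C F)
    {R : Plk L Ω →₀ ℤ} (hR0 : 0 ≤ R) (hR : Module.finrank L (LL L R) = 1)
    (hRc : ∀ y, R y ≠ 0 → ¬ Cst F y) (c : Plk L Ω → L)
    (hc : ∀ f ∈ LL C W, ∑ y ∈ R.support, c y * vl y (algebraMap F Ω f) = 0) :
    ∀ y ∈ R.support, c y = 0 := by
  classical
  intro y₀ hy₀
  obtain ⟨⟨z, hz0, hz⟩, hsp⟩ := span_can h hdg hl
  set W' := W.mapDomain (up h) with hW'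
  have hW0 : ∀ y ∈ R.support, W' y = 0 := fun y hy =>
    Finsupp.mapDomain_notin_range _ _ fun hc =>
      hRc y (Finsupp.mem_support_iff.1 hy) ((cst_iff h).2 hc)
  have hsum : ∀ w ∈ LL L W', (∀ y ∈ R.support, w ∈ Mge y 0) ∧
      ∑ y ∈ R.support, c y * vl y w = 0 := by
    intro w hw
    rw [hsp] at hw
    induction hw using Submodule.span_induction with
    | mem x hx =>
      obtain ⟨f, hf, rfl⟩ := hx
      exact ⟨fun y hy => mem_Mge.2 (Or.inr
        (ord_of_not_cst (hRc y (Finsupp.mem_support_iff.1 hy)) f).ge), hc f hf⟩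
    | zero => exact ⟨fun y _ => zero_mem _, by simp [vl_zero']⟩
    | add x x' _ _ h1 h2 =>
      refine ⟨fun y hy => add_mem (h1.1 y hy) (h2.1 y hy), ?_⟩
      rw [Finset.sum_congr rfl fun y hy => by
        rw [vl_add (ord_nonneg_of_mem (h1.1 y hy)) (ord_nonneg_of_mem (h2.1 y hy)), mul_add],
        Finset.sum_add_distrib, h1.2, h2.2, add_zero]
    | smul a x _ h1 =>
      refine ⟨fun y hy => Submodule.smul_mem _ _ (h1.1 y hy), ?_⟩
      rw [Finset.sum_congr rfl fun y hy => by
        rw [vl_smul a (ord_nonneg_of_mem (h1.1 y hy)), mul_left_comm],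
        ← Finset.mul_sum, h1.2, mul_zero]
  have hdim : ∀ Z : Plk L Ω →₀ ℤ, 0 ≤ Z → Z ≤ R →
      (Module.finrank L (LL L (W' - Z)) : ℤ) = gen L Ω - dg Z := by
    intro Z h1 h2
    have h3 := l_mono (k := L) h1
    have h4 := l_mono (k := L) h2
    have h5 := RR Z
    rw [l_zero] at h3
    rw [hz, add_sub_right_comm, l_add_dv _ hz0]
    omega
  set Z : Plk L Ω →₀ ℤ := ∑ y ∈ R.support, Finsupp.single y 1 with hZ
  have hZa : ∀ y, Z y = if y ∈ R.support then 1 else 0 := by
    intro y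
    rw [hZ, Finsupp.finset_sum_apply]
    simp only [Finsupp.single_apply]
    rw [Finset.sum_ite_eq']
  have hZR : Z ≤ R := by
    intro y
    have h1 := hR0 y
    rw [Finsupp.zero_apply] at h1
    rw [hZa]
    split_ifs with h2
    · have h3 := Finsupp.mem_support_iff.1 h2
      omega
    · exact h1
  have hZ' : ∀ y, (Z - Finsupp.single y₀ 1 : Plk L Ω →₀ ℤ) y =
      if y ∈ R.support ∧ y ≠ y₀ then 1 else 0 := by
    intro y
    rw [Finsupp.sub_apply, hZa, Finsupp.single_apply]
    by_cases h1 : y₀ = y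
    · subst h1
      simp [hy₀]
    · have h2 : y ≠ y₀ := fun h => h1 h.symm
      simp [h1, h2]
  have h1 := hdim Z (fun y => by rw [hZa, Finsupp.zero_apply]; split_ifs <;> omega) hZR
  have h2 := hdim (Z - Finsupp.single y₀ 1)
    (fun y => by rw [hZ', Finsupp.zero_apply]; split_ifs <;> omega)
    (fun y => by
      have h3 := hZR y
      rw [Finsupp.sub_apply, Finsupp.single_apply]
      split_ifs <;> omega)
  rw [map_sub, dg_sgl] at h2
  obtain ⟨w, hw1, hw2⟩ : ∃ w, w ∈ LL L (W' - (Z - Finsupp.single y₀ 1)) ∧ w ∉ LL L (W' - Z) := by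
    by_contra hcon
    push Not at hcon
    have h3 := Submodule.finrank_mono (show LL L (W' - (Z - Finsupp.single y₀ 1)) ≤
      LL L (W' - Z) from hcon)
    omega
  have hw3 := mem_LL_iff.1 hw1
  have hw4 : w ∈ LL L W' := by
    refine LL_mono (fun y => ?_) hw1
    rw [Finsupp.sub_apply, hZ']
    split_ifs <;> omega
  have hv : ∀ y ∈ R.support, y ≠ y₀ → vl y w = 0 := by
    intro y hy hy'
    refine vl_eq ?_
    have h3 := hw3 y
    rw [Finsupp.sub_apply, hZ', if_pos ⟨hy, hy'⟩, hW0 y hy] at h3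
    simpa using h3
  have hv0 : vl y₀ w ≠ 0 := by
    intro h3
    refine hw2 (mem_LL_iff.2 fun y => ?_)
    by_cases h4 : y = y₀
    · subst h4
      have h5 := sub_vl_mem (ord_nonneg_of_mem ((hsum w hw4).1 y hy₀))
      rw [h3, map_zero, sub_zero] at h5
      rw [Finsupp.sub_apply, hZa, if_pos hy₀, hW0 y hy₀]
      simpa using h5
    · have h5 := hw3 y
      rw [Finsupp.sub_apply, Finsupp.sub_apply, Finsupp.single_eq_of_ne h4, sub_zero] at h5
      rw [Finsupp.sub_apply]
      exact h5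
  have h3 := (hsum w hw4).2
  rw [Finset.sum_eq_single y₀ (fun y hy hy' => by rw [hv y hy hy', mul_zero])
    (fun h4 => absurd hy₀ h4)] at h3
  exact (mul_eq_zero.1 h3).resolve_right hv0

end Vale.Agent.P297Y.CY
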