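import Vale.Agent.P297Y.An.Defs2
import Vale.Agent.P297Y.An.CorYA
import Vale.Agent.P297Y.An.Crr

/-! P297, positive irregularity: from a non constant divisor class to a Galois stable set of
points which impose independent conditions on the regular forms. -/

set_option linter.all false

namespace Vale.Agent.P297Z.Sf

open Vale.Agent.P019P P025H492 Vale.Agent.P297Y Vale.Agent.P297Y.CY

theorem cor2y : ∀ (K : Type) [Field K] [Algebra ℂ K], P297Y.HasCor K → HasY K := by
  classical
  rintro K _ _ ⟨F, Ω, _, _, _, _, _, _, _, _, _, _, h, D, hInv, hD⟩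
  obtain ⟨R, hR0, hRne, hR1, hRc, hRi⟩ := exists_rigid h hD
  obtain ⟨t, ht, -⟩ := CFF.ex (k := ℂ) (F := F)
  have htc : ∀ c : ℂ, t ≠ algebraMap ℂ F c := fun c hc => ht (hc ▸ isAlgebraic_algebraMap c)
  have hind := indep h (Crr.dg_wdv htc) (Crr.l_wdv htc) hR0 hR1 hRc
  let ι : {y // y ∈ R.support} → (F →ₐ[ℂ] AlgebraicClosure K) := fun y =>
    iota ℂ F y.1 (hRc y.1 (Finsupp.mem_support_iff.1 y.2))
  have hι : ∀ y f, ι y f = vl y.1 (algebraMap F Ω f) := fun _ _ => rfl
  have hinj : Function.Injective ι := by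
    intro y₁ y₂ h12
    by_contra hne
    have hne' : y₁.1 ≠ y₂.1 := fun h3 => hne (Subtype.ext h3)
    have h1 := hind (fun y => (if y = y₁.1 then 1 else 0) - if y = y₂.1 then 1 else 0)
      (fun f _ => by
        simp only [sub_mul, ite_mul, one_mul, zero_mul, Finset.sum_sub_distrib,
          Finset.sum_ite_eq', if_pos y₁.2, if_pos y₂.2]
        rw [← hι, ← hι, h12, sub_self]) y₁.1 y₁.2
    simp [hne'] at h1
  refine ⟨F, inferInstance, inferInstance, inferInstance, t, R.support.attach.image ι, htc, ?_,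
    fun σ ψ hψ => ?_, fun c hc ψ hψ => ?_⟩
  · obtain ⟨y, hy⟩ := Finsupp.support_nonempty_iff.2 hRne
    exact ⟨ι ⟨y, hy⟩, Finset.mem_image_of_mem _ (Finset.mem_attach _ _)⟩
  · obtain ⟨y, -, rfl⟩ := Finset.mem_image.1 hψ
    obtain ⟨τ, hτ, hF⟩ := exists_lift h (σ.restrictScalars ℂ)
    have hτ' : ∀ a, τ (algebraMap (AlgebraicClosure K) Ω a) =
        algebraMap (AlgebraicClosure K) Ω (σ.toRingEquiv a) := hτ
    have h1 := hRi τ σ.toRingEquiv hτ' hF (hInv σ τ hτ' hF) y.1
    have h2 : plEquiv τ σ.toRingEquiv hτ' y.1 ∈ R.support := by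
      rw [Finsupp.mem_support_iff, h1]
      exact Finsupp.mem_support_iff.1 y.2
    refine ⟨ι ⟨_, h2⟩, Finset.mem_image_of_mem _ (Finset.mem_attach _ _), fun f => ?_⟩
    rw [hι, hι]
    have h3 := vl_plEquiv hτ'
      (ord_of_not_cst (hRc y.1 (Finsupp.mem_support_iff.1 y.2)) f).ge
    rw [hF] at h3
    exact h3
  · obtain ⟨y, -, rfl⟩ := Finset.mem_image.1 hψ
    have h1 := hind (fun y => if hy : y ∈ R.support then c (ι ⟨y, hy⟩) else 0) (fun f hf => by
      have h2 := hc f hf
      rw [Finset.sum_image fun a _ b _ hab => hinj hab] at h2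
      rw [← Finset.sum_attach, ← h2]
      refine Finset.sum_congr rfl fun y _ => ?_
      rw [dif_pos y.2, hι]) y.1 y.2
    rwa [dif_pos y.2] at h1

theorem albc_of (h : ALB) : ALBC := fun K _ _ S a b c => h K S a b (cor2y K c)

end Vale.Agent.P297Z.Sf
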