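import Vale.Agent.P297Y.An.Cor
import Vale.Agent.P025.R2.H816.BC3
import Vale.Agent.P025.R2.H816.BC4

/-! Base change of a curve: the functions which are regular at all the non constant places. -/

set_option linter.all false

open TensorProduct IntermediateField

namespace Vale.Agent.P297Y

open Vale.Agent.P019P P025H941

section

variable {C F L Ω : Type} [Field C] [Field F] [Field L] [Field Ω] [Algebra C F] [Algebra C L]
  [Algebra C Ω] [Algebra F Ω] [Algebra L Ω] [IsScalarTower C F Ω] [IsScalarTower C L Ω]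
  [CFF C F] [CFF L Ω]

/-- A function with a pole at each place of a finite set. -/
theorem exists_poles (S : Finset (Plk C F)) : ∃ x : F, ∀ P ∈ S, ord P x < 0 := by
  classical
  choose u hu0 hu1 hu2 using fun P : Plk C F => P025H816.exists_only_zero P
  refine ⟨∑ P ∈ S, (u P)⁻¹, fun P hP => ?_⟩
  by_contra hc
  have h1 : ∑ Q ∈ S, (u Q)⁻¹ ∈ Mge P 0 := mem_Mge.2 (Or.inr (not_lt.1 hc))
  have h2 : ∑ Q ∈ S.erase P, (u Q)⁻¹ ∈ Mge P 0 := Submodule.sum_mem _ fun Q hQ =>
    mem_Mge.2 (Or.inr (by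
      rw [ord_inv]
      have := hu2 Q P (Finset.ne_of_mem_erase hQ).symm
      omega))
  rw [← Finset.add_sum_erase S _ hP] at h1
  have h3 := Submodule.sub_mem _ h1 h2
  rw [add_sub_cancel_right, mem_Mge, ord_inv] at h3
  rcases h3 with h3 | h3
  · exact inv_ne_zero (hu0 P) h3
  · have := hu1 P
    omega

/-- The spaces of functions with large poles along the poles of `x` come from `F`. -/
theorem LL_le_spn [CharZero C] (h : IsBC C F L Ω) {x : F} (hx : ∀ a : C, x ≠ algebraMap C F a) :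
    ∃ r₀ : ℕ, ∀ r : ℕ, r₀ ≤ r → LL L (r • pol L (algebraMap F Ω x)) ≤ spn F L Ω := by
  have h' := h.to816
  have hx' := h'.nc_up hx
  obtain ⟨r₀, hr₀⟩ := exists_l_pol_eq hx
  obtain ⟨r₁, hr₁⟩ := exists_l_pol_eq hx'
  refine ⟨r₀ + r₁, fun r hr => ?_⟩
  have e : Module.finrank C (LL C (r • pol C x)) =
      Module.finrank L (LL L (r • pol L (algebraMap F Ω x))) := by
    have h1 := hr₀ r (by omega)
    have h2 := hr₁ r (by omega)
    rw [(h'.finrank_eq_and hx').1, h'.gen_eq, ← h1] at h2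
    exact_mod_cast h2.symm
  let β := Module.finBasis C (LL C (r • pol C x))
  have h1 : LinearIndependent C (fun l => (β l : F)) :=
    β.linearIndependent.map' _ (Submodule.ker_subtype _)
  have h2 := h.li h1
  have h3 : Submodule.span L (Set.range fun l => algebraMap F Ω (β l : F)) =
      LL L (r • pol L (algebraMap F Ω x)) := by
    refine Submodule.eq_of_le_of_finrank_eq (Submodule.span_le.2 ?_) ?_
    · rintro _ ⟨l, rfl⟩
      exact P025H816.LL_up h'.comm (β l).2
    · rw [finrank_span_eq_card h2, Fintype.card_fin, e]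
  rw [← h3]
  refine Submodule.span_le.2 ?_
  rintro _ ⟨l, rfl⟩
  exact mem_spn_left _

theorem spn_le_Mge {y : Plk L Ω} (hy : ¬ Cst F y) : spn F L Ω ≤ Mge y 0 := by
  refine Submodule.span_le.2 ?_
  rintro _ ⟨f, rfl⟩
  refine mem_Mge.2 (Or.inr ?_)
  by_contra hc
  exact hy ⟨f, by omega⟩

/-- A function which is regular at all the non constant places comes from the tensor product. -/
theorem mem_spn_of [CharZero C] (h : IsBC C F L Ω) {w : Ω}
    (hw : ∀ y : Plk L Ω, ¬ Cst F y → w ∈ Mge y 0) : w ∈ spn F L Ω := by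
  classical
  by_cases hw0 : w = 0
  · rw [hw0]
    exact Submodule.zero_mem _
  have h' := h.to816
  obtain ⟨x₀, hx₀⟩ := h'.exists_nc
  obtain ⟨P₀, -⟩ := exists_pole (P025H816.nc_down h'.comm hx₀)
  have key : ∀ y : Plk L Ω, ∃ (P : Plk C F) (e : ℤ), ord y w < 0 → 0 < e ∧
      ∀ z, ord y (algebraMap F Ω z) = e * ord P z := by
    intro y
    rcases P025H816.restr h'.comm y with h1 | ⟨P, e, he, -, h1⟩
    · refine ⟨P₀, 0, fun hy => ?_⟩
      rcases hw y (fun ⟨f, hf⟩ => hf (h1 f)) with h2 | h2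
      · exact absurd h2 hw0
      · omega
    · exact ⟨P, e, fun _ => ⟨he, h1⟩⟩
  choose P e hP using key
  obtain ⟨x, hx⟩ := exists_poles (insert P₀ ((dv L w).support.image P))
  have hnc : ∀ a : C, x ≠ algebraMap C F a := fun a ha => by
    have h1 := hx P₀ (Finset.mem_insert_self _ _)
    rw [ha, ord_const] at h1
    exact lt_irrefl _ h1
  obtain ⟨r₀, hr₀⟩ := LL_le_spn h hnc
  refine hr₀ (r₀ + ∑ y ∈ (dv L w).support, (ord y w).natAbs) (by omega)
    (mem_LL.2 (Or.inr fun y => ?_))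
  rw [Finsupp.smul_apply, pol_apply, nsmul_eq_mul]
  have h0 : 0 ≤ max 0 (-ord y (algebraMap F Ω x)) := le_max_left _ _
  by_cases hy : ord y w < 0
  · have hm : y ∈ (dv L w).support := by
      rw [Finsupp.mem_support_iff, dv_apply]
      omega
    have h1 : ord y (algebraMap F Ω x) < 0 := by
      rw [(hP y hy).2]
      exact mul_neg_of_pos_of_neg (hP y hy).1
        (hx _ (Finset.mem_insert_of_mem (Finset.mem_image_of_mem _ hm)))
    have h2 : 1 ≤ max 0 (-ord y (algebraMap F Ω x)) := le_max_of_le_right (by omega)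
    have h3 : (ord y w).natAbs ≤ ∑ y ∈ (dv L w).support, (ord y w).natAbs :=
      Finset.single_le_sum (f := fun y => (ord y w).natAbs) (fun _ _ => Nat.zero_le _) hm
    have h4 := mul_le_mul_of_nonneg_left h2
      (Int.natCast_nonneg (r₀ + ∑ y ∈ (dv L w).support, (ord y w).natAbs))
    omega
  · have h4 := mul_nonneg (Int.natCast_nonneg (r₀ + ∑ y ∈ (dv L w).support, (ord y w).natAbs)) h0
    omega

/-- A matrix of rank one whose first row has a constant divisor class is a product. -/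
theorem exists_factor [CharZero C] (h : IsBC C F L Ω) {U : Fin 2 → Fin 2 → Ω}
    (hU : ∀ i j, U i j ∈ spn F L Ω) (h0 : U 0 0 ≠ 0) (h1 : U 0 1 ≠ 0)
    (hd : U 0 0 * U 1 1 = U 0 1 * U 1 0) {E : Plk L Ω →₀ ℤ} (hE : ∀ y, E y ≠ 0 → Cst F y)
    (hp : dv L (U 0 0) ⊓ dv L (U 0 1) - E ∈ prn L Ω) :
    ∃ z z' : Fin 2 → Ω, (∀ i, z i ∈ spn F L Ω) ∧ (∀ i, z' i ∈ spn F L Ω) ∧
      ∀ i j, U i j = z i * z' j := by
  obtain ⟨θ, hθ0, hθ⟩ := hp
  have hne : ∀ l, U 0 l ≠ 0 := Fin.forall_fin_two.2 ⟨h0, h1⟩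
  have hmin : ∀ y : Plk L Ω, ¬ Cst F y → min (ord y (U 0 0)) (ord y (U 0 1)) = ord y θ := by
    intro y hy
    have h2 := DFunLike.congr_fun hθ y
    have h3 : E y = 0 := by
      by_contra hc
      exact hy (hE y hc)
    rw [Finsupp.sub_apply, Finsupp.inf_apply, dv_apply, dv_apply, dv_apply, h3, sub_zero] at h2
    exact h2
  have hf : ∀ i j, U i j = U i 0 * θ / U 0 0 * (U 0 j / θ) := by
    refine Fin.forall_fin_two.2 ⟨fun j => ?_, Fin.forall_fin_two.2 ⟨?_, ?_⟩⟩
    · field_simp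
    · field_simp
    · field_simp
      linear_combination hd
  have ho : ∀ (y : Plk L Ω) l, ord y (U 0 l / θ) = ord y (U 0 l) - ord y θ := fun y l => by
    rw [div_eq_mul_inv, ord_mul y (hne l) (inv_ne_zero hθ0), ord_inv, sub_eq_add_neg]
  refine ⟨fun i => U i 0 * θ / U 0 0, fun j => U 0 j / θ, fun i => mem_spn_of h fun y hy => ?_,
    fun j => mem_spn_of h fun y hy => mem_Mge.2 (Or.inr ?_), hf⟩
  · obtain ⟨l, hl⟩ : ∃ l, ord y (U 0 l) = ord y θ := by
      rcases min_choice (ord y (U 0 0)) (ord y (U 0 1)) with h2 | h2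
      · exact ⟨0, by rw [← hmin y hy, h2]⟩
      · exact ⟨1, by rw [← hmin y hy, h2]⟩
    have h2 : U i 0 * θ / U 0 0 = U i l * (U 0 l / θ)⁻¹ := by
      rw [hf i l, mul_assoc, mul_inv_cancel₀ (div_ne_zero (hne l) hθ0), mul_one]
    have h3 : (U 0 l / θ)⁻¹ ∈ Mge y 0 := mem_Mge.2 (Or.inr (by rw [ord_inv, ho, hl]; omega))
    have h4 := mul_mem_Mge (spn_le_Mge hy (hU i l)) h3
    rw [add_zero] at h4
    beta_reduce
    rwa [h2]
  · have h2 := hmin y hy
    have h3 : ∀ l, ord y θ ≤ ord y (U 0 l) :=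
      Fin.forall_fin_two.2 ⟨h2 ▸ min_le_left _ _, h2 ▸ min_le_right _ _⟩
    have h4 := h3 j
    beta_reduce
    rw [ho]
    omega

end

/-- The divisor of the first row of a matrix of rank one. -/
theorem hasCor_of {K : Type} [Field K] [Algebra ℂ K] {F : Type} [Field F] [Algebra ℂ F] [CFF ℂ F]
    (u : Fin 2 → Fin 2 → F ⊗[ℂ] K) (h0 : u 0 0 ≠ 0) (h1 : u 0 1 ≠ 0)
    (hd : u 0 0 * u 1 1 = u 0 1 * u 1 0)
    (hn : ¬ ∃ z z' : Fin 2 → F ⊗[ℂ] AlgebraicClosure K, ∀ i j,
      Algebra.TensorProduct.map (AlgHom.id ℂ F)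
        (IsScalarTower.toAlgHom ℂ K (AlgebraicClosure K)) (u i j) = z i * z' j) : HasCor K := by
  obtain ⟨Ω, i1, i2, i3, i4, i5, i6, h, hc⟩ := exists_bc_cff ℂ F (AlgebraicClosure K)
  set φ := Algebra.TensorProduct.map (AlgHom.id ℂ F)
    (IsScalarTower.toAlgHom ℂ K (AlgebraicClosure K)) with hφ
  have hi : Function.Injective φ :=
    Module.Flat.lTensor_preserves_injective_linearMap (M := F)
      (IsScalarTower.toAlgHom ℂ K (AlgebraicClosure K)).toLinearMap
      (algebraMap K (AlgebraicClosure K)).injective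
  have hi2 : ∀ t, t ≠ 0 → can ℂ F (AlgebraicClosure K) Ω (φ t) ≠ 0 := fun t ht h2 =>
    ht (hi (h.inj (by rw [h2, map_zero, map_zero])))
  refine ⟨F, Ω, _, _, inferInstance, i1, i2, i3, i4, i5, i6, hc, h,
    dv _ (can ℂ F (AlgebraicClosure K) Ω (φ (u 0 0))) ⊓
      dv _ (can ℂ F (AlgebraicClosure K) Ω (φ (u 0 1))), fun σ τ hτ hF y => ?_, fun E hE hp => ?_⟩
  · have hfix : ∀ t, τ (can ℂ F (AlgebraicClosure K) Ω (φ t)) =
        can ℂ F (AlgebraicClosure K) Ω (φ t) := by
      intro t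
      induction t using TensorProduct.induction_on with
      | zero => simp only [map_zero]
      | tmul x c =>
        rw [hφ, Algebra.TensorProduct.map_tmul, can_tmul, map_mul, AlgHom.id_apply, hF, hτ]
        congr 2
        exact σ.commutes c
      | add x y hx hy => simp only [map_add, hx, hy]
    have h2 := fun t => ord_plEquiv τ σ.toRingEquiv hτ y (can ℂ F (AlgebraicClosure K) Ω (φ t))
    simp only [hfix] at h2
    rw [Finsupp.inf_apply, Finsupp.inf_apply, dv_apply, dv_apply, dv_apply, dv_apply, h2, h2]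
  · obtain ⟨z, z', hz, hz', h2⟩ := exists_factor h
      (U := fun i j => can ℂ F (AlgebraicClosure K) Ω (φ (u i j))) (fun i j => can_mem _)
      (hi2 _ h0) (hi2 _ h1) (by simp only [← map_mul, hd]) hE hp
    choose t ht using fun i => exists_can (C := ℂ) (hz i)
    choose t' ht' using fun i => exists_can (C := ℂ) (hz' i)
    refine hn ⟨t, t', fun i j => h.inj ?_⟩
    rw [map_mul, ht, ht']
    exact h2 i j

end Vale.Agent.P297Y
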