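import Vale.Agent.P297Y.An.Defs2
import Vale.Agent.P297Y.An.Spn

/-! P297, positive irregularity: the class of the family of line bundles is not constant. -/

namespace Vale.Agent.P297Z.Sf

theorem picc : PICC := by
  rintro K _ _ ⟨F, _, _, _, u, h0, h1, hd, hn⟩
  exact P297Y.hasCor_of u h0 h1 hd hn

end Vale.Agent.P297Z.Sf
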