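import Vale.Agent.P297Y.An.Picv
import Vale.Agent.P297Y.An.Picc
import Vale.Agent.P297Y.An.CorY
import Vale.Agent.P297Y.An.Art
import Vale.Agent.P297Y.An.Alb
import Vale.Agent.P297Y.An.Mor
import Vale.Agent.P297Y.An.Par

/-! P297, positive irregularity: the Albanese fibration exists. -/

set_option linter.all false

namespace Vale.Agent.P297Z.Sf

theorem albf : ALBF := albf_of' (Pic.picv art) picc (albc_of alb)

theorem mor' : MOR := mor par

end Vale.Agent.P297Z.Sf
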