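import Vale.Agent.P025.R2.H941.BcCFF
import Vale.Agent.P025.R2.H816.J05
import Mathlib.FieldTheory.IsAlgClosed.AlgebraicClosure

/-! Divisorial correspondences between the field `K` and a curve: a divisor of the curve over the
algebraic closure of `K` which is invariant under the Galois group of `K`. -/

set_option linter.all false

namespace Vale.Agent.P297Y

open Vale.Agent.P019P

/-- The place `y` of `Ω` is constant: it lies over a place of `F`. -/
def Cst {L Ω : Type} [Field L] [Field Ω] [Algebra L Ω] [CFF L Ω] (F : Type) [Field F]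
    [Algebra F Ω] (y : Plk L Ω) : Prop := ∃ f : F, ord y (algebraMap F Ω f) ≠ 0

/-- The divisor `D` is invariant under the automorphisms of `Ω` which fix `F` and `K`. -/
def Inv (K : Type) [Field K] {Ω : Type} [Field Ω] [Algebra (AlgebraicClosure K) Ω]
    [CFF (AlgebraicClosure K) Ω] (F : Type) [Field F] [Algebra F Ω]
    (D : Plk (AlgebraicClosure K) Ω →₀ ℤ) : Prop :=
  ∀ (σ : AlgebraicClosure K ≃ₐ[K] AlgebraicClosure K) (τ : Ω ≃+* Ω)
    (h : ∀ a, τ (algebraMap (AlgebraicClosure K) Ω a) =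
      algebraMap (AlgebraicClosure K) Ω (σ.toRingEquiv a)),
    (∀ f, τ (algebraMap F Ω f) = algebraMap F Ω f) →
    ∀ y, D (plEquiv τ σ.toRingEquiv h y) = D y

/-- There is a curve with a divisor class defined over `K` which is not constant. -/
def HasCor (K : Type) [Field K] [Algebra ℂ K] : Prop :=
  ∃ (F Ω : Type) (_ : Field F) (_ : Algebra ℂ F) (_ : CFF ℂ F) (_ : Field Ω) (_ : Algebra ℂ Ω)
    (_ : Algebra F Ω) (_ : Algebra (AlgebraicClosure K) Ω) (_ : IsScalarTower ℂ F Ω)
    (_ : IsScalarTower ℂ (AlgebraicClosure K) Ω) (_ : CFF (AlgebraicClosure K) Ω),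
    P025H941.IsBC ℂ F (AlgebraicClosure K) Ω ∧ ∃ D : Plk (AlgebraicClosure K) Ω →₀ ℤ,
      Inv K F D ∧ ∀ E : Plk (AlgebraicClosure K) Ω →₀ ℤ, (∀ y, E y ≠ 0 → Cst F y) →
        D - E ∉ prn (AlgebraicClosure K) Ω

end Vale.Agent.P297Y
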