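import Vale.Agent.P297Y.An.Defs
import Vale.Agent.P297Y.An.Cor

/-! P297, positive irregularity: the family of line bundles over a curve. Statements. -/

set_option linter.all false

open TensorProduct

namespace Vale.Agent.P297Z.Sf

open Vale.Agent.P019P (CFF)

/-- A matrix of rank one over `F ⊗ K` that is not a product of a column and a row over the
algebraic closure of `K`. -/
def HasV (K : Type) [Field K] [Algebra ℂ K] : Prop :=
  ∃ (F : Type) (_ : Field F) (_ : Algebra ℂ F) (_ : CFF ℂ F) (u : Fin 2 → Fin 2 → F ⊗[ℂ] K),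
    u 0 0 ≠ 0 ∧ u 0 1 ≠ 0 ∧ u 0 0 * u 1 1 = u 0 1 * u 1 0 ∧
      ¬ ∃ z z' : Fin 2 → F ⊗[ℂ] AlgebraicClosure K, ∀ i j,
        Algebra.TensorProduct.map (AlgHom.id ℂ F)
          (IsScalarTower.toAlgHom ℂ K (AlgebraicClosure K)) (u i j) = z i * z' j

/-- A non trivial family of line bundles over a curve. -/
def PICV : Prop := ForAll fun {K} _ _ S => S.All → ¬ S.Cech1 0 → HasV K

/-- The class of the family is not constant. -/
def PICC : Prop := ∀ (K : Type) [Field K] [Algebra ℂ K], HasV K → P297Y.HasCor K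

/-- The regular forms and the fibration. -/
def ALBC : Prop := ForAll fun {K} _ _ S => S.All → H0 S.kap = ⊥ → P297Y.HasCor K →
  Nonempty (Fib S)

theorem albf_of' (h1 : PICV) (h2 : PICC) (h3 : ALBC) : ALBF :=
  fun K _ _ S h hp hq => h3 K S h hp (h2 K (h1 K S h hq))

end Vale.Agent.P297Z.Sf
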