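import Vale.Agent.P297Z.Surf.Sk
import Mathlib.RingTheory.PowerSeries.Exp

/-! Sections of the formal family of line bundles attached to a cocycle. -/

set_option linter.all false

open PowerSeries

namespace Vale.Agent.P297Z.Sf.Pic

theorem exists_rec {α : Type} (a₀ : α) (P : ℕ → (ℕ → α) → Prop)
    (hdep : ∀ n c c', (∀ j ≤ n, c j = c' j) → P n c → P n c')
    (hstep : ∀ n c, (∀ j < n, P j c) → ∃ g, P n (Function.update c n g)) : ∃ c, ∀ n, P n c := by
  classical
  let F : ℕ → ℕ → α := fun n => Nat.rec (fun _ => a₀) (fun n c => Function.update c n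
    (if h : ∃ g, P n (Function.update c n g) then h.choose else a₀)) n
  have hF : ∀ n, F (n + 1) = Function.update (F n) n
    (if h : ∃ g, P n (Function.update (F n) n g) then h.choose else a₀) := fun _ => rfl
  have h1 : ∀ m j, j < m → F m j = F (j + 1) j := by
    intro m
    induction m with
    | zero => intro j hj; omega
    | succ m ih =>
      intro j hj
      by_cases e : j = m
      · rw [e]
      · rw [hF m, Function.update_of_ne e, ih j (by omega)]
  refine ⟨fun j => F (j + 1) j, fun n => ?_⟩
  induction n using Nat.strong_induction_on with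
  | _ n ih =>
    have h2 := hstep n (F n) fun j hj =>
      hdep j _ _ (fun i hi => (h1 n i (by omega)).symm) (ih j hj)
    have h3 : P n (F (n + 1)) := by
      rw [hF, dif_pos h2]
      exact h2.choose_spec
    exact hdep n _ _ (fun i hi => h1 (n + 1) i (by omega)) h3

variable {K : Type} [Field K] [Algebra ℂ K]

/-- the exponential series -/
noncomputable def ex (a : K) : K⟦X⟧ := mk fun n => ((n.factorial : ℂ)⁻¹) • a ^ n

theorem ex_eq (a : K) : ex a =
    haveI : CharZero K := charZero_of_injective_algebraMap (algebraMap ℂ K).injective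
    rescale a (PowerSeries.exp K) := by
  haveI : CharZero K := charZero_of_injective_algebraMap (algebraMap ℂ K).injective
  ext n
  rw [ex, coeff_mk, coeff_rescale, coeff_exp, Algebra.smul_def, mul_comm]
  simp

theorem ex_add (a b : K) : ex (a + b) = ex a * ex b := by
  haveI : CharZero K := charZero_of_injective_algebraMap (algebraMap ℂ K).injective
  rw [ex_eq, ex_eq, ex_eq, exp_mul_exp_eq_exp_add]

theorem ex_zero : ex (0 : K) = 1 := by
  ext n
  rw [ex, coeff_mk, coeff_one]
  cases n <;> simp

theorem coeff_zero_ex (a : K) : coeff 0 (ex a) = 1 := by simp [ex]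

theorem coeff_one_ex (a : K) : coeff 1 (ex a) = a := by simp [ex]

variable {W : Submodule ℂ K}

theorem one_mem_secOn (P : Crv W → Prop) : (1 : K) ∈ secOn P (0 : Div W) :=
  Or.inr fun C _ => by simp

theorem pow_mem_secOn {P : Crv W → Prop} {D : Div W} {a : K} (ha : a ∈ secOn P D) (n : ℕ) :
    a ^ n ∈ secOn P ((n : ℤ) • D) := by
  induction n with
  | zero => simpa using one_mem_secOn P
  | succ n ih =>
    have := mul_mem_secOn ih ha
    rwa [← pow_succ, show (n : ℤ) • D + D = ((n + 1 : ℕ) : ℤ) • D by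
      push_cast; rw [add_smul, one_smul]] at this

theorem coeff_ex_mem {P : Crv W → Prop} {a : K} (ha : a ∈ secOn P (0 : Div W)) (n : ℕ) :
    coeff n (ex a) ∈ secOn P (0 : Div W) := by
  rw [ex, coeff_mk]
  exact Submodule.smul_mem _ _ (by simpa using pow_mem_secOn ha n)

theorem coeff_mul_mem {P : Crv W → Prop} {D D' : Div W} {s s' : K⟦X⟧}
    (h : ∀ n, coeff n s ∈ secOn P D) (h' : ∀ n, coeff n s' ∈ secOn P D') (n : ℕ) :
    coeff n (s * s') ∈ secOn P (D + D') := by
  rw [coeff_mul]
  exact Submodule.sum_mem _ fun p _ => mul_mem_secOn (h _) (h' _)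

variable {S : Surf K}

/-- The sections of `O(D)` lift to the formal family. -/
theorem lift {D : Div S.W} (hD : S.Cech1 D) {f : Fin 3 → K}
    (hf : ∀ i j, f i - f j ∈ secOn (fun C : Crv S.W => C.In (S.x i) ∧ C.In (S.x j)) 0)
    {s₀ : K} (hs : s₀ ∈ H0 D) :
    ∃ s : K⟦X⟧, coeff 0 s = s₀ ∧ ∀ i n, coeff n (ex (f i) * s) ∈ secIn (S.x i) D := by
  classical
  have dep : ∀ (E : K⟦X⟧) n (c c' : ℕ → K), (∀ j ≤ n, c j = c' j) →
      coeff n (E * mk c) = coeff n (E * mk c') := fun E n c c' h => by
    rw [coeff_mul, coeff_mul]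
    refine Finset.sum_congr rfl fun p hp => ?_
    have := Finset.mem_antidiagonal.1 hp
    rw [coeff_mk, coeff_mk, h _ (by omega)]
  obtain ⟨c, hc⟩ := exists_rec (0 : K)
    (fun n c => (n = 0 → c 0 = s₀) ∧ ∀ i, coeff n (ex (f i) * mk c) ∈ secIn (S.x i) D)
    (fun n c c' h h1 => ⟨fun e => by rw [← h 0 (Nat.zero_le _)]; exact h1.1 e,
      fun i => by rw [← dep _ n c c' h]; exact h1.2 i⟩) (fun n c h => by
      rcases Nat.eq_zero_or_pos n with rfl | hn
      · refine ⟨s₀, fun _ => by simp, fun i => ?_⟩
        rw [coeff_zero_eq_constantCoeff, map_mul, ← coeff_zero_eq_constantCoeff_apply,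
          ← coeff_zero_eq_constantCoeff_apply, coeff_zero_ex, one_mul, coeff_mk,
          Function.update_self]
        exact secOn_mono (fun _ _ => ⟨trivial, le_rfl⟩) hs
      · obtain ⟨g, hg⟩ := hD (fun i => coeff n (ex (f i) * mk c)) fun i j => by
          have e : ex (f i) * mk c - ex (f j) * mk c =
              (ex (f i - f j) - 1) * (ex (f j) * mk c) := by
            rw [sub_mul, ← mul_assoc, ← ex_add, sub_add_cancel, one_mul]
          rw [← map_sub, e, coeff_mul]
          refine Submodule.sum_mem _ fun p hp => ?_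
          by_cases h0 : p.1 = 0
          · rw [h0, map_sub, coeff_zero_ex, coeff_one, if_pos rfl, sub_self, zero_mul]
            exact zero_mem _
          · have h1 := Finset.mem_antidiagonal.1 hp
            rw [map_sub, coeff_one, if_neg h0, sub_zero, ← zero_add D]
            exact mul_mem_secOn (coeff_ex_mem (hf i j) _)
              (secOn_mono (fun _ h => ⟨h.2, le_rfl⟩) ((h p.2 (by omega)).2 j))
        refine ⟨c n - g, fun e => by omega, fun i => ?_⟩
        have e : mk (Function.update c n (c n - g)) = mk c - C g * X ^ n := by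
          ext j
          rw [map_sub, coeff_mk, coeff_mk, coeff_C_mul, coeff_X_pow]
          by_cases e : j = n
          · rw [e, Function.update_self, if_pos rfl, mul_one]
          · rw [Function.update_of_ne e, if_neg e, mul_zero, sub_zero]
        rw [e, mul_sub, map_sub, ← mul_assoc, coeff_mul_X_pow', if_pos le_rfl, Nat.sub_self,
          coeff_mul_C, coeff_zero_ex, one_mul]
        exact hg i)
  exact ⟨mk c, by rw [coeff_mk]; exact (hc 0).1 rfl, fun i n => (hc n).2 i⟩

/-- The first cohomology of the large multiples of the hyperplane divisor vanishes. -/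
theorem exists_cech1 (h : S.All) : ∃ m : ℕ, S.Cech1 ((m : ℤ) • S.H) := by
  obtain ⟨m₀, h0⟩ := h.large 0
  obtain ⟨-, ⟨m₁, h1⟩, -⟩ := h.fg S.kap
  refine ⟨(max m₀ (1 - m₁)).toNat, (h.cech _).2 ?_⟩
  have h2 := h0 (max m₀ (1 - m₁)).toNat (by omega)
  have h3 := h1 (-((max m₀ (1 - m₁)).toNat : ℤ)) (by omega)
  rw [zero_add] at h2
  rw [M, neg_smul, ← sub_eq_add_neg] at h3
  rw [← h2, Sf.h0, Sf.h0, h3]
  simp

end Vale.Agent.P297Z.Sf.Pic
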