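import Vale.Agent.P297Y.An.Rig
import Vale.Agent.P297Y.An.Defs2

/-! A non trivial family of line bundles over a curve. -/

set_option linter.all false

open PowerSeries TensorProduct IntermediateField

namespace Vale.Agent.P297Z.Sf.Pic

open Vale.Agent.P019P (CFF)

section ten

variable {K : Type} [Field K] [Algebra ℂ K] {A : Type} [Fintype A] (e : A → K)

/-- the matrix with given coordinates -/
noncomputable def tn {R : Type} [CommRing R] [Algebra ℂ R] (c : Fin 2 × Fin 2 × A → R)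
    (k l : Fin 2) : R ⊗[ℂ] K := ∑ α, c (k, l, α) ⊗ₜ e α

/-- its determinant -/
noncomputable def dt {R : Type} [CommRing R] [Algebra ℂ R] (c : Fin 2 × Fin 2 × A → R) :
    R ⊗[ℂ] K := tn e c 0 0 * tn e c 1 1 - tn e c 0 1 * tn e c 1 0

variable {R R' : Type} [CommRing R] [Algebra ℂ R] [CommRing R'] [Algebra ℂ R']

theorem map_tn (φ : R →ₐ[ℂ] R') (c : Fin 2 × Fin 2 × A → R) (k l : Fin 2) :
    Algebra.TensorProduct.map φ (AlgHom.id ℂ K) (tn e c k l) = tn e (fun i => φ (c i)) k l := by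
  simp [tn]

theorem map_dt (φ : R →ₐ[ℂ] R') (c : Fin 2 × Fin 2 × A → R) :
    Algebra.TensorProduct.map φ (AlgHom.id ℂ K) (dt e c) = dt e (fun i => φ (c i)) := by
  simp only [dt, map_sub, map_mul, map_tn]

/-- the coordinates of a tensor -/
noncomputable def co (R : Type) [CommRing R] [Algebra ℂ R] :
    R ⊗[ℂ] K ≃ₗ[ℂ] (Module.Basis.ofVectorSpaceIndex ℂ K →₀ R) :=
  open Classical in TensorProduct.equivFinsuppOfBasisRight (Module.Basis.ofVectorSpace ℂ K)

theorem co_tmul (r : R) (a : K) (i) :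
    co R (r ⊗ₜ a) i = (Module.Basis.ofVectorSpace ℂ K).repr a i • r := by
  classical
  exact TensorProduct.equivFinsuppOfBasisRight_apply_tmul_apply _ r a i

theorem co_map (φ : R →ₐ[ℂ] R') (w : R ⊗[ℂ] K) (i) :
    co R' (Algebra.TensorProduct.map φ (AlgHom.id ℂ K) w) i = φ (co R w i) := by
  induction w using TensorProduct.induction_on with
  | zero => simp
  | add x y hx hy => simp only [map_add, Finsupp.add_apply, hx, hy]
  | tmul r a => rw [Algebra.TensorProduct.map_tmul, co_tmul, co_tmul, map_smul]; rfl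

theorem dt_eq_zero {c : Fin 2 × Fin 2 × A → R} : dt e c = 0 ↔ ∀ i, MvPolynomial.aeval c
    (co (MvPolynomial (Fin 2 × Fin 2 × A) ℂ) (dt e MvPolynomial.X) i) = 0 := by
  have h := map_dt e (R := MvPolynomial (Fin 2 × Fin 2 × A) ℂ) (MvPolynomial.aeval c)
    MvPolynomial.X
  simp only [MvPolynomial.aeval_X] at h
  rw [← (co R).map_eq_zero_iff, Finsupp.ext_iff, ← h]
  exact forall_congr' fun i => by rw [co_map (R := MvPolynomial (Fin 2 × Fin 2 × A) ℂ)]; rfl

/-- the map to the power series -/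
noncomputable def th (K : Type) [Field K] [Algebra ℂ K] : ℂ⟦X⟧ ⊗[ℂ] K →ₐ[ℂ] K⟦X⟧ :=
  Algebra.TensorProduct.productMap (mapAlgHom (Algebra.ofId ℂ K))
    ((IsScalarTower.toAlgHom ℂ K K⟦X⟧))

theorem th_tmul (p : ℂ⟦X⟧) (a : K) : th K (p ⊗ₜ a) = map (algebraMap ℂ K) p * C a := rfl

theorem coeff_th (p : ℂ⟦X⟧) (a : K) (n : ℕ) : coeff n (th K (p ⊗ₜ a)) = coeff n p • a := by
  rw [th_tmul, coeff_mul_C, coeff_map, Algebra.smul_def]

theorem th_inj {w : ℂ⟦X⟧ ⊗[ℂ] K} (h : th K w = 0) : w = 0 := by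
  have key : ∀ (w : ℂ⟦X⟧ ⊗[ℂ] K) i n, coeff n (co _ w i) =
      (Module.Basis.ofVectorSpace ℂ K).repr (coeff n (th K w)) i := fun w i n => by
    induction w using TensorProduct.induction_on with
    | zero => simp
    | add x y hx hy => simp only [map_add, Finsupp.add_apply, hx, hy]
    | tmul r a => rw [co_tmul, coeff_th, map_smul, map_smul, Finsupp.smul_apply, smul_eq_mul,
        smul_eq_mul, mul_comm]
  rw [← (co _).map_eq_zero_iff]
  ext i n
  rw [key, h]
  simp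

theorem coeff_th_tn (c : Fin 2 × Fin 2 × A → ℂ⟦X⟧) (k l : Fin 2) (n : ℕ) :
    coeff n (th K (tn e c k l)) = ∑ α, coeff n (c (k, l, α)) • e α := by
  simp only [tn, map_sum, coeff_th]

end ten

/-- The field generated by finitely many algebraic power series. -/
theorem exists_cff {ι : Type} [Fintype ι] (c : ι → ℂ⟦X⟧)
    (hc : ∀ i, ∃ P : Polynomial (Polynomial ℂ), P ≠ 0 ∧
      P.eval₂ Polynomial.coeToPowerSeries.ringHom (c i) = 0) :
    ∃ (F : Type) (_ : Field F) (_ : Algebra ℂ F) (_ : CFF ℂ F) (j : F →ₐ[ℂ] (FractionRing ℂ⟦X⟧)) (y : ι → F),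
      ∀ i, j (y i) = algebraMap _ (FractionRing ℂ⟦X⟧) (c i) := by
  let t : (FractionRing ℂ⟦X⟧) := algebraMap ℂ⟦X⟧ (FractionRing ℂ⟦X⟧) X
  have ht : ∀ p : Polynomial ℂ, Polynomial.aeval t p = algebraMap ℂ⟦X⟧ (FractionRing ℂ⟦X⟧) p := fun p => by
    rw [Polynomial.aeval_algebraMap_apply, Polynomial.aeval_def,
      ← Polynomial.eval₂_C_X_eq_coe]
    rfl
  have hinj : ∀ p : Polynomial ℂ, Polynomial.aeval t p = 0 → p = 0 := fun p hp => by
    rw [ht, map_eq_zero_iff _ (IsFractionRing.injective _ _)] at hp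
    exact Polynomial.coe_eq_zero_iff.1 hp
  have h0 : CFF ℂ ℂ⟮t⟯ := by
    refine ⟨inferInstance, AdjoinSimple.gen ℂ t, ?_, ?_⟩
    · rw [← transcendental_algebraMap_iff (A := (FractionRing ℂ⟦X⟧)) (algebraMap ℂ⟮t⟯ (FractionRing ℂ⟦X⟧)).injective]
      exact transcendental_iff.2 hinj
    · have e : ℂ⟮AdjoinSimple.gen ℂ t⟯ = (⊤ : IntermediateField ℂ ℂ⟮t⟯) := by
        apply IntermediateField.lift_injective
        rw [IntermediateField.lift_top, IntermediateField.lift, IntermediateField.adjoin_map,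
          Set.image_singleton]
        rfl
      exact Module.Finite.of_surjective (Algebra.linearMap ℂ⟮AdjoinSimple.gen ℂ t⟯ ℂ⟮t⟯)
        fun z => ⟨⟨z, by rw [e]; trivial⟩, rfl⟩
  let F := IntermediateField.adjoin ℂ⟮t⟯ (Set.range fun i => algebraMap _ (FractionRing ℂ⟦X⟧) (c i))
  have h1 : FiniteDimensional ℂ⟮t⟯ F := by
    refine finiteDimensional_adjoin ?_
    rintro _ ⟨i, rfl⟩
    obtain ⟨P, h1, h2⟩ := hc i
    let φ : Polynomial ℂ →+* ℂ⟮t⟯ := (Polynomial.aeval (AdjoinSimple.gen ℂ t)).toRingHom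
    have e : (algebraMap ℂ⟮t⟯ (FractionRing ℂ⟦X⟧)).comp φ =
        (algebraMap ℂ⟦X⟧ (FractionRing ℂ⟦X⟧)).comp Polynomial.coeToPowerSeries.ringHom := RingHom.ext fun p => by
      change algebraMap ℂ⟮t⟯ (FractionRing ℂ⟦X⟧) (Polynomial.aeval _ p) = algebraMap ℂ⟦X⟧ (FractionRing ℂ⟦X⟧) p
      rw [← Polynomial.aeval_algebraMap_apply, AdjoinSimple.algebraMap_gen, ht]
    have hφ : Function.Injective φ := (injective_iff_map_eq_zero φ).2 fun p hp => hinj p (by
      rw [ht]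
      exact (DFunLike.congr_fun e p).symm.trans (by rw [RingHom.comp_apply, hp, map_zero]))
    refine IsAlgebraic.isIntegral ⟨P.map φ, (Polynomial.map_ne_zero_iff hφ).2 h1, ?_⟩
    rw [Polynomial.aeval_def, Polynomial.eval₂_map, e, ← Polynomial.hom_eval₂, h2, map_zero]
  exact ⟨F, inferInstance, inferInstance, P025H816.cff_of_finite (K := ℂ⟮t⟯),
    F.val.restrictScalars ℂ, fun i => ⟨_, subset_adjoin _ _ ⟨i, rfl⟩⟩, fun i => rfl⟩

theorem exists_pow (q : (FractionRing ℂ⟦X⟧)) : ∃ (N : ℕ) (p : ℂ⟦X⟧),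
    algebraMap ℂ⟦X⟧ (FractionRing ℂ⟦X⟧) (X ^ N) * q = algebraMap _ (FractionRing ℂ⟦X⟧) p := by
  obtain ⟨a, b, hb, rfl⟩ := IsFractionRing.div_surjective (A := ℂ⟦X⟧) q
  have hb0 : b ≠ 0 := nonZeroDivisors.ne_zero hb
  obtain ⟨N, u, rfl⟩ :=
    IsDiscreteValuationRing.eq_unit_mul_pow_irreducible hb0 X_prime.irreducible
  refine ⟨N, a * ↑u⁻¹, ?_⟩
  have h1 : algebraMap ℂ⟦X⟧ (FractionRing ℂ⟦X⟧) ((u : ℂ⟦X⟧) * X ^ N) ≠ 0 :=
    (map_ne_zero_iff _ (IsFractionRing.injective _ _)).2 hb0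
  rw [mul_div_assoc', div_eq_iff h1, ← map_mul, ← map_mul, mul_assoc, Units.inv_mul_cancel_left,
    mul_comm]

/-- The expansion of the elements of `F ⊗ L`. -/
theorem exists_psi (L : Type) [Field L] [Algebra ℂ L] {F : Type} [Field F] [Algebra ℂ F]
    (j : F →ₐ[ℂ] (FractionRing ℂ⟦X⟧)) : ∃ ψ : F ⊗[ℂ] L →+* FractionRing L⟦X⟧,
    (∀ y p a, j y = algebraMap _ (FractionRing ℂ⟦X⟧) p → ψ (y ⊗ₜ a) = algebraMap _ _ (th L (p ⊗ₜ a))) ∧
    ∀ z, ∃ (N : ℕ) (Z : L⟦X⟧), FD Z ∧ algebraMap L⟦X⟧ _ (X ^ N) * ψ z = algebraMap _ _ Z := by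
  let g : ℂ⟦X⟧ →ₐ[ℂ] FractionRing L⟦X⟧ :=
    (IsScalarTower.toAlgHom ℂ L⟦X⟧ _).comp (mapAlgHom (Algebra.ofId ℂ L))
  have hg : Function.Injective g := (IsFractionRing.injective L⟦X⟧ _).comp
    (PowerSeries.map_injective _ (algebraMap ℂ L).injective)
  let G : (FractionRing ℂ⟦X⟧) →ₐ[ℂ] FractionRing L⟦X⟧ := IsFractionRing.liftAlgHom hg
  have hG : ∀ p, G (algebraMap _ (FractionRing ℂ⟦X⟧) p) = algebraMap _ _ (map (algebraMap ℂ L) p) := fun p =>
    IsFractionRing.lift_algebraMap hg p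
  let ψ : F ⊗[ℂ] L →ₐ[ℂ] FractionRing L⟦X⟧ := Algebra.TensorProduct.productMap (G.comp j)
    ((IsScalarTower.toAlgHom ℂ L⟦X⟧ _).comp (IsScalarTower.toAlgHom ℂ L L⟦X⟧))
  have hψ : ∀ y a, ψ (y ⊗ₜ a) = G (j y) * algebraMap L⟦X⟧ _ (C a) := fun _ _ => rfl
  refine ⟨ψ.toRingHom, fun y p a h => ?_, fun z => ?_⟩
  · change ψ _ = _
    rw [hψ, h, hG, th_tmul, map_mul]
  · change ∃ (N : ℕ) (Z : L⟦X⟧), _ ∧ _ * ψ z = _
    induction z using TensorProduct.induction_on with
    | zero => exact ⟨0, 0, ⟨⊥, inferInstance, fun n => by simp⟩, by simp⟩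
    | add x y hx hy =>
      obtain ⟨N, Z, h1, h2⟩ := hx
      obtain ⟨N', Z', h3, h4⟩ := hy
      refine ⟨N + N', X ^ N' * Z + X ^ N * Z', (h1.pow_mul _).add (h3.pow_mul _), ?_⟩
      rw [map_add, map_add, map_mul, map_mul, ← h2, ← h4, pow_add, map_mul]
      ring
    | tmul y a =>
      obtain ⟨N, p, h⟩ := exists_pow (j y)
      refine ⟨N, _, fd_map p a, ?_⟩
      rw [hψ, map_mul, ← hG, ← h, map_mul, hG, map_pow, map_pow, map_X, map_pow, mul_assoc]

theorem indep {K : Type} [Field K] [Algebra ℂ K] (S : Surf K) :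
    LinearIndependent ℂ ![S.x 0, S.x 1] := by
  rw [LinearIndependent.pair_iff]
  intro s t h
  have ht : t = 0 := by
    by_contra ht
    refine S.indep.transcendental 0 ?_
    have : S.x 1 / S.x 0 = algebraMap ℂ K (-s / t) := by
      rw [Algebra.smul_def, Algebra.smul_def] at h
      have h1 : algebraMap ℂ K t ≠ 0 := by simpa using ht
      have h2 := S.x_ne 0
      rw [map_div₀, map_neg]
      field_simp
      linear_combination h
    change IsAlgebraic ℂ (S.x 1 / S.x 0)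
    rw [this]
    exact isAlgebraic_algebraMap _
  rw [ht, zero_smul, add_zero] at h
  exact ⟨(smul_eq_zero.1 h).resolve_right (S.x_ne 0), ht⟩

theorem picv (hA : ART) : PICV := fun K _ _ S h hq => by
  classical
  by_contra hV
  refine hq fun f hf => ?_
  obtain ⟨m, hm⟩ := exists_cech1 h
  obtain ⟨D, hD⟩ : ∃ D, D = (m : ℤ) • S.H := ⟨_, rfl⟩
  let e : Fin 2 → K := fun k => S.x k.castSucc ^ m
  have he : ∀ k, e k ≠ 0 := fun k => pow_ne_zero _ (S.x_ne _)
  have heD : ∀ k, e k ∈ H0 D := fun k => hD ▸ pow_mem_secOn (by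
    have := SB.mem_M_one S.model (S.x_mem k.castSucc)
    rwa [M, one_smul, zero_add] at this) m
  have hDe : ∀ C : Crv S.W, ∃ k, D C = - C.ord (e k) := fun C => by
    obtain ⟨k, hk⟩ : ∃ k : Fin 2, C.In (S.x k.castSucc) :=
      (h.two _ (SB.x_mem_X S 0) _ (SB.x_mem_X S 1) (indep S) C).elim (fun h => ⟨0, h⟩) fun h => ⟨1, h⟩
    refine ⟨k, ?_⟩
    rw [hD, Finsupp.smul_apply, h.hyp_in C _ (S.x_mem _) hk]
    unfold Crv.ord
    rw [Pl.ord_pow, smul_eq_mul, mul_neg]
  rw [← hD] at hm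
  choose s s0 hs using fun k => lift hm hf (heD k)
  choose s' s0' hs' using fun k => lift hm (f := fun i => - f i) (fun i j => by
    rw [neg_sub_neg]
    exact secOn_mono (fun _ h => ⟨h.symm, le_rfl⟩) (hf j i)) (heD k)
  have hU : ∀ k l n, coeff n (s k * s' l) ∈ H0 (D + D) := fun k l n => by
    by_cases o : coeff n (s k * s' l) = 0
    · exact Or.inl o
    refine Or.inr fun C _ => ?_
    obtain ⟨i, hi⟩ := h.crv_cover C
    have h1 := coeff_mul_mem (hs k i) (hs' l i) n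
    rw [mul_mul_mul_comm, ← ex_add, add_neg_cancel, ex_zero, one_mul] at h1
    exact h1.resolve_left o C hi
  have hfin : FiniteDimensional ℂ (H0 (D + D)) := by
    have := (h.fg (D + D)).1 0
    rwa [M, zero_smul, add_zero] at this
  let b := Module.finBasis ℂ (H0 (D + D))
  let E : Fin (Module.finrank ℂ (H0 (D + D))) → K := fun α => b α
  let c : Fin 2 × Fin 2 × Fin (Module.finrank ℂ (H0 (D + D))) → ℂ⟦X⟧ :=
    fun i => mk fun n => b.repr ⟨_, hU i.1 i.2.1 n⟩ i.2.2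
  have hc : ∀ k l, th K (tn E c k l) = s k * s' l := fun k l => by
    ext n
    rw [coeff_th_tn]
    have := congrArg (H0 (D + D)).subtype (b.sum_repr ⟨_, hU k l n⟩)
    rw [map_sum] at this
    refine Eq.trans (Finset.sum_congr rfl fun α _ => ?_) this
    rw [map_smul, coeff_mk]
    rfl
  have hdt : dt E c = 0 := th_inj (by
    rw [dt, map_sub, map_mul, map_mul, hc, hc, hc, hc]
    ring)
  obtain ⟨c', a1, a2, a3⟩ := hA _ c 2
  obtain ⟨F, _, _, _, j, y, hy⟩ := exists_cff c' a1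
  have hdt' : dt E y = 0 := (dt_eq_zero E).2 fun i => by
    have h1 := a3 _ ((dt_eq_zero E).1 hdt i)
    refine j.injective ?_
    have h2 := congrArg (IsScalarTower.toAlgHom ℂ ℂ⟦X⟧ (FractionRing ℂ⟦X⟧)) h1
    rw [← AlgHom.comp_apply, MvPolynomial.comp_aeval, map_zero] at h2
    rw [map_zero, ← h2]
    change (j.comp (MvPolynomial.aeval y)) _ = _
    rw [MvPolynomial.comp_aeval]
    simp only [hy]
    rfl
  have hco : ∀ k l n, n < 2 → coeff n (th K (tn E c' k l)) = coeff n (s k * s' l) :=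
    fun k l n hn => by
      rw [← hc, coeff_th_tn, coeff_th_tn]
      refine Finset.sum_congr rfl fun α _ => ?_
      have := X_pow_dvd_iff.1 (a2 (k, l, α)) n hn
      rw [map_sub, sub_eq_zero] at this
      rw [this]
  have u0 : ∀ k l, coeff 0 (th K (tn E c' k l)) = e k * e l := fun k l => by
    rw [hco k l 0 (by omega), coeff_zero_mul', s0, s0']
  obtain ⟨ψ, p1, p2⟩ := exists_psi (AlgebraicClosure K) j
  have hψ : ∀ k l, ψ (Algebra.TensorProduct.map (AlgHom.id ℂ F)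
      (IsScalarTower.toAlgHom ℂ K (AlgebraicClosure K)) (tn E y k l)) =
      algebraMap _ _ (map (algebraMap K (AlgebraicClosure K)) (th K (tn E c' k l))) := by
    intro k l
    simp only [tn, map_sum, Algebra.TensorProduct.map_tmul]
    refine Finset.sum_congr rfl fun α _ => ?_
    rw [AlgHom.id_apply, p1 _ _ _ (hy _), th_tmul, th_tmul, map_mul, map_mul, map_mul, map_C]
    congr 2
  have hne : ∀ k l, tn E y k l ≠ 0 := fun k l o => by
    have h1 := hψ k l
    rw [o, map_zero, map_zero, eq_comm, map_eq_zero_iff _ (IsFractionRing.injective _ _)] at h1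
    have h2 := congrArg (coeff 0) h1
    rw [coeff_map, u0, map_zero, _root_.map_eq_zero] at h2
    exact mul_ne_zero (he k) (he l) h2
  obtain ⟨z, z', hz⟩ : ∃ z z' : Fin 2 → F ⊗[ℂ] AlgebraicClosure K, ∀ k l,
      Algebra.TensorProduct.map (AlgHom.id ℂ F)
        (IsScalarTower.toAlgHom ℂ K (AlgebraicClosure K)) (tn E y k l) = z k * z' l := by
    by_contra hz
    exact hV ⟨F, _, _, ‹_›, tn E y, hne 0 0, hne 0 1, sub_eq_zero.1 hdt', hz⟩
  choose N Z q1 q2 using p2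
  refine rig (D := D) (e := e) he hDe (a := fun k => coeff 1 (s k)) (a' := fun k => coeff 1 (s' k))
    (fun i k => ?_) (U := fun k l => th K (tn E c' k l)) (fun k l n => ?_) u0 (fun k l => ?_)
    (M := N (z 0) + N (z 1) + (N (z' 0) + N (z' 1)))
    (Z := fun k => X ^ N (z (1 - k)) * Z (z k)) (Z' := fun k => X ^ N (z' (1 - k)) * Z (z' k))
    (fun k => (q1 _).pow_mul _) (fun k => (q1 _).pow_mul _) fun k l => ?_
  · have := hs k i 1
    rwa [coeff_one_mul', coeff_one_ex, coeff_zero_ex, one_mul, s0, add_comm] at this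
  · rw [coeff_th_tn]
    exact Submodule.sum_mem _ fun α _ => Submodule.smul_mem _ _ (b α).2
  · rw [hco k l 1 (by omega), coeff_one_mul', s0, s0']
  · refine IsFractionRing.injective _ (FractionRing (AlgebraicClosure K)⟦X⟧) ?_
    have e1 : N (z 0) + N (z 1) = N (z (1 - k)) + N (z k) := by
      fin_cases k
      · exact add_comm _ _
      · rfl
    have e2 : N (z' 0) + N (z' 1) = N (z' (1 - l)) + N (z' l) := by
      fin_cases l
      · exact add_comm _ _
      · rfl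
    rw [map_mul, map_mul, map_mul, map_mul, ← q2, ← q2, ← hψ, hz, e1, e2]
    simp only [pow_add, map_mul]
    ring

end Vale.Agent.P297Z.Sf.Pic
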