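import Vale.Agent.P297Y.An.Lift
import Vale.Agent.P297Y.An.Tame

/-! If the family of line bundles is trivial to all orders, the cocycle is a coboundary. -/

set_option linter.all false

open PowerSeries

namespace Vale.Agent.P297Z.Sf.Pic

section gauss

variable {L : Type} [Field L] [Algebra ℂ L] {Γ : Type} [LinearOrderedCommGroupWithZero Γ]

/-- the coefficients lie in a finite dimensional space -/
def FD (Z : L⟦X⟧) : Prop := ∃ N : Submodule ℂ L, FiniteDimensional ℂ N ∧ ∀ n, coeff n Z ∈ N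

theorem FD.add {Z Z' : L⟦X⟧} (h : FD Z) (h' : FD Z') : FD (Z + Z') := by
  obtain ⟨N, _, h⟩ := h
  obtain ⟨N', _, h'⟩ := h'
  exact ⟨N ⊔ N', inferInstance, fun n => by
    rw [map_add]; exact Submodule.add_mem_sup (h n) (h' n)⟩

theorem FD.pow_mul {Z : L⟦X⟧} (h : FD Z) (j : ℕ) : FD (X ^ j * Z) := by
  obtain ⟨N, hN, h⟩ := h
  refine ⟨N, hN, fun n => ?_⟩
  rw [coeff_X_pow_mul']
  split_ifs
  · exact h _
  · exact zero_mem _

theorem FD.of_X_mul {Z : L⟦X⟧} (h : FD (X * Z)) : FD Z := by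
  obtain ⟨N, hN, h⟩ := h
  exact ⟨N, hN, fun n => by simpa using h (n + 1)⟩

theorem fd_map (p : ℂ⟦X⟧) (a : L) : FD (map (algebraMap ℂ L) p * C a) :=
  ⟨Submodule.span ℂ {a}, inferInstance, fun n => by
    rw [coeff_mul_C, coeff_map, ← Algebra.smul_def]
    exact Submodule.smul_mem _ _ (Submodule.mem_span_singleton_self a)⟩

theorem FD.exists_max {Z : L⟦X⟧} (h : FD Z) (v : Valuation L Γ)
    (hv : ∀ c : ℂ, v (algebraMap ℂ L c) ≤ 1) : ∃ n₀, ∀ n, v (coeff n Z) ≤ v (coeff n₀ Z) := by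
  classical
  obtain ⟨N, hN, h⟩ := h
  have h1 : Submodule.span ℂ (Set.range fun n => coeff n Z) ≤ N :=
    Submodule.span_le.2 (by rintro _ ⟨n, rfl⟩; exact h n)
  have h2 : (Submodule.span ℂ (Set.range fun n => coeff n Z)).FG :=
    Module.Finite.iff_fg.1 (Submodule.finiteDimensional_of_le h1)
  obtain ⟨T, hT, e⟩ := (Submodule.fg_span_iff_fg_span_finset_subset _).1 h2
  obtain ⟨a, ha, hmax⟩ := (insert (coeff 0 Z) T).exists_max_image v (Finset.insert_nonempty _ _)
  obtain ⟨n₀, rfl⟩ : a ∈ Set.range fun n => coeff n Z := by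
    rcases Finset.mem_insert.1 ha with rfl | ha
    · exact ⟨0, rfl⟩
    · exact hT ha
  refine ⟨n₀, fun n => ?_⟩
  have h3 : coeff n Z ∈ Submodule.span ℂ (T : Set L) := e ▸ Submodule.subset_span ⟨n, rfl⟩
  generalize coeff n Z = y at h3
  induction h3 using Submodule.span_induction with
  | mem x hx => exact hmax x (Finset.mem_insert_of_mem hx)
  | zero => simp
  | add x y _ _ hx hy => exact v.map_add_le hx hy
  | smul c x _ hx =>
    rw [Algebra.smul_def, map_mul]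
    exact (mul_le_of_le_one_left' (hv c)).trans hx

/-- The lemma of Gauss. -/
theorem gauss (v : Valuation L Γ) {Z Z' : L⟦X⟧} {n₀ n₁ : ℕ}
    (h : ∀ n, v (coeff n Z) ≤ v (coeff n₀ Z)) (h' : ∀ n, v (coeff n Z') ≤ v (coeff n₁ Z'))
    {γ : Γ} (hγ : ∀ n, v (coeff n (Z * Z')) ≤ γ) : v (coeff n₀ Z) * v (coeff n₁ Z') ≤ γ := by
  classical
  obtain ⟨α, hα⟩ : ∃ α, α = v (coeff n₀ Z) := ⟨_, rfl⟩
  obtain ⟨β, hβ⟩ : ∃ β, β = v (coeff n₁ Z') := ⟨_, rfl⟩
  rw [← hα] at h ⊢
  rw [← hβ] at h' ⊢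
  by_cases h0 : α * β = 0
  · rw [h0]; exact zero_le
  have a0 : 0 < α := zero_lt_iff.2 (left_ne_zero_of_mul h0)
  have b0 : 0 < β := zero_lt_iff.2 (right_ne_zero_of_mul h0)
  have e1 : ∃ n, v (coeff n Z) = α := ⟨n₀, hα.symm⟩
  have e2 : ∃ n, v (coeff n Z') = β := ⟨n₁, hβ.symm⟩
  have h1 := hγ (Nat.find e1 + Nat.find e2)
  have hm : (Nat.find e1, Nat.find e2) ∈
      Finset.HasAntidiagonal.antidiagonal (Nat.find e1 + Nat.find e2) :=
    Finset.HasAntidiagonal.mem_antidiagonal.2 rfl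
  have h2 : v (coeff (Nat.find e1) Z * coeff (Nat.find e2) Z') = α * β := by
    rw [map_mul, Nat.find_spec e1, Nat.find_spec e2]
  rw [coeff_mul, ← Finset.add_sum_erase _ _ hm, v.map_add_eq_of_lt_left, h2] at h1
  · exact h1
  rw [h2]
  refine v.map_sum_lt h0 fun p hp => ?_
  obtain ⟨h3, h4⟩ := Finset.mem_erase.1 hp
  have h5 := Finset.HasAntidiagonal.mem_antidiagonal.1 h4
  rw [map_mul]
  by_cases h6 : p.1 < Nat.find e1
  · exact mul_lt_mul_of_lt_of_le_of_nonneg_of_pos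
      (lt_of_le_of_ne (h _) (Nat.find_min e1 h6)) (h' _) zero_le b0
  · have h7 : p.2 < Nat.find e2 := by
      by_contra h7
      exact h3 (Prod.ext (by simp only; omega) (by simp only; omega))
    exact mul_lt_mul_of_le_of_lt_of_nonneg_of_pos (h _)
      (lt_of_le_of_ne (h' _) (Nat.find_min e2 h7)) zero_le a0

/-- Removing the powers of the variable. -/
theorem reduce {U : Fin 2 → Fin 2 → L⟦X⟧} (M : ℕ) : ∀ Z Z' : Fin 2 → L⟦X⟧, (∀ k, FD (Z k)) →
    (∀ k, FD (Z' k)) → (∀ k l, Z k * Z' l = X ^ M * U k l) →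
    ∃ Z Z' : Fin 2 → L⟦X⟧, (∀ k, FD (Z k)) ∧ (∀ k, FD (Z' k)) ∧ ∀ k l, Z k * Z' l = U k l := by
  induction M with
  | zero => exact fun Z Z' h h' e => ⟨Z, Z', h, h', by simpa using e⟩
  | succ M ih =>
    intro Z Z' h h' e
    by_cases h1 : ∀ k, X ∣ Z k
    · choose Y hY using h1
      refine ih Y Z' (fun k => FD.of_X_mul (hY k ▸ h k)) h' fun k l => ?_
      refine mul_left_cancel₀ (X_ne_zero (R := L)) ?_
      rw [← mul_assoc, ← hY, e]
      ring
    · obtain ⟨k₀, h2⟩ := not_forall.1 h1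
      have h3 : ∀ l, X ∣ Z' l := fun l =>
        (X_prime.dvd_or_dvd (a := Z k₀) ⟨X ^ M * U k₀ l, by rw [e]; ring⟩).resolve_left h2
      choose Y hY using h3
      refine ih Z Y h (fun k => FD.of_X_mul (hY k ▸ h' k)) fun k l => ?_
      refine mul_left_cancel₀ (X_ne_zero (R := L)) ?_
      rw [mul_left_comm, ← hY, e]
      ring

end gauss

variable {K : Type} [Field K] [Algebra ℂ K]

/-- Averaging over the conjugates. -/
theorem exists_avg (g : (AlgebraicClosure K)) : ∃ g' : K, ∀ (P : P297.Place K) (f : K),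
    (∀ c : ℂ, algebraMap ℂ K c ∈ P.ring) →
    (∀ V : ValuationSubring (AlgebraicClosure K), (∀ a ∈ P.ring, algebraMap K (AlgebraicClosure K) a ∈ V) → algebraMap K (AlgebraicClosure K) f - g ∈ V) →
    f - g' ∈ P.ring := by
  have hi : IsIntegral K g := Algebra.IsIntegral.isIntegral g
  let p := (minpoly K g).map (algebraMap K (AlgebraicClosure K))
  have hp : p.Splits := IsAlgClosed.splits p
  have hm : p.Monic := (minpoly.monic hi).map _
  have hn : (minpoly K g).natDegree ≠ 0 := (minpoly.natDegree_pos hi).ne'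
  have hc : p.roots.card = (minpoly K g).natDegree := by
    rw [← hp.natDegree_eq_card_roots, (minpoly.monic hi).natDegree_map]
  refine ⟨(((minpoly K g).natDegree : ℂ)⁻¹) • -(minpoly K g).nextCoeff, fun P f hc0 h => ?_⟩
  obtain ⟨V, hV⟩ := P297Y.exists_valSub (L := (AlgebraicClosure K)) P
  have h1 : ∀ r ∈ p.roots, algebraMap K (AlgebraicClosure K) f - r ∈ V := fun r hr => by
    obtain ⟨σ, hσ⟩ := minpoly.exists_algEquiv_of_root' (x := r) hi.isAlgebraic (by
      rw [Polynomial.aeval_def, ← Polynomial.eval_map]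
      exact (Polynomial.mem_roots hm.ne_zero).1 hr)
    have h2 := h (V.comap (σ : (AlgebraicClosure K) →+* (AlgebraicClosure K))) fun a ha => by
      rw [ValuationSubring.mem_comap]
      change σ _ ∈ V
      rw [σ.commutes]
      exact (hV a).2 ha
    rw [ValuationSubring.mem_comap] at h2
    change σ _ ∈ V at h2
    rwa [map_sub, σ.commutes, hσ] at h2
  have h2 : (p.roots.map fun r => algebraMap K (AlgebraicClosure K) f - r).sum ∈ V :=
    multiset_sum_mem _ fun a ha => by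
      obtain ⟨r, hr, rfl⟩ := Multiset.mem_map.1 ha
      exact h1 r hr
  have h3 : (p.roots.map fun r => algebraMap K (AlgebraicClosure K) f - r).sum =
      algebraMap K (AlgebraicClosure K) ((minpoly K g).natDegree * f + (minpoly K g).nextCoeff) := by
    rw [Multiset.sum_map_sub, Multiset.map_const', Multiset.sum_replicate, Multiset.map_id', hc,
      map_add, ← Polynomial.nextCoeff_map_eq, hp.nextCoeff_eq_neg_sum_roots_of_monic hm, map_mul,
      map_natCast, nsmul_eq_mul, sub_eq_add_neg]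
  rw [h3, hV] at h2
  have h4 := mul_mem (hc0 ((minpoly K g).natDegree : ℂ)⁻¹) h2
  have h5 : algebraMap ℂ K ((minpoly K g).natDegree : ℂ)⁻¹ * ((minpoly K g).natDegree : K) = 1 := by
    rw [← map_natCast (algebraMap ℂ K), ← map_mul, inv_mul_cancel₀ (Nat.cast_ne_zero.2 hn), map_one]
  rw [mul_add, ← mul_assoc, h5, one_mul] at h4
  rwa [Algebra.smul_def, mul_neg, sub_neg_eq_add]

theorem coeff_one_mul' {R : Type} [CommRing R] (a b : R⟦X⟧) :
    coeff 1 (a * b) = coeff 1 a * coeff 0 b + coeff 0 a * coeff 1 b := by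
  rw [coeff_mul, Finset.Nat.antidiagonal_succ, Finset.sum_cons]
  simp [add_comm]

theorem coeff_zero_mul' {R : Type} [CommRing R] (a b : R⟦X⟧) :
    coeff 0 (a * b) = coeff 0 a * coeff 0 b := by simp

variable {S : Surf K}

theorem div_mem {C : Crv S.W} {P : Crv S.W → Prop} (hP : P C) {D : Div S.W} {e y : K} (he : e ≠ 0)
    (hD : D C = - C.ord e) (hy : y ∈ secOn P D) : y / e ∈ C.pl.ring := by
  by_cases h0 : y = 0
  · rw [h0, zero_div]; exact zero_mem _
  · have := hy.resolve_left h0 C hP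
    refine (Pl.ord_nonneg_iff _ (div_ne_zero h0 he)).1 ?_
    rw [Pl.ord_div _ h0 he]
    unfold Crv.ord at *
    omega

/-- Rigidity. -/
theorem rig {D : Div S.W} {f : Fin 3 → K} {e : Fin 2 → K} (he : ∀ k, e k ≠ 0)
    (hD : ∀ C : Crv S.W, ∃ k, D C = - C.ord (e k)) {a a' : Fin 2 → K}
    (ha : ∀ i k, a k + f i * e k ∈ secIn (S.x i) D) {U : Fin 2 → Fin 2 → K⟦X⟧}
    (hU : ∀ k l n, coeff n (U k l) ∈ H0 (D + D)) (h0 : ∀ k l, coeff 0 (U k l) = e k * e l)
    (h1 : ∀ k l, coeff 1 (U k l) = a k * e l + e k * a' l) {M : ℕ} {Z Z' : Fin 2 → (AlgebraicClosure K)⟦X⟧}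
    (hZ : ∀ k, FD (Z k)) (hZ' : ∀ k, FD (Z' k))
    (hm : ∀ k l, Z k * Z' l = X ^ M * map (algebraMap K (AlgebraicClosure K)) (U k l)) :
    ∃ g, ∀ i, f i - g ∈ secIn (S.x i) (0 : Div S.W) := by
  obtain ⟨Z, Z', hZ, hZ', hm⟩ := reduce M Z Z' hZ hZ' hm
  let j := algebraMap K (AlgebraicClosure K)
  have je : ∀ k, j (e k) ≠ 0 := fun k => (_root_.map_ne_zero j).2 (he k)
  have c0 : ∀ k l, coeff 0 (Z k) * coeff 0 (Z' l) = j (e k) * j (e l) := fun k l => by
    rw [← coeff_zero_mul', hm, coeff_map, h0, map_mul]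
  have c1 : ∀ k, coeff 1 (Z k) * coeff 0 (Z' 0) + coeff 0 (Z k) * coeff 1 (Z' 0) =
      j (a k) * j (e 0) + j (e k) * j (a' 0) := fun k => by
    rw [← coeff_one_mul', hm, coeff_map, h1, map_add, map_mul, map_mul]
  obtain ⟨ν, hν⟩ : ∃ ν, ν = coeff 0 (Z' 0) / j (e 0) := ⟨_, rfl⟩
  have ν0 : ν ≠ 0 := by
    rw [hν]
    exact div_ne_zero (right_ne_zero_of_mul (by rw [c0 0 0]; exact mul_ne_zero (je 0) (je 0)))
      (je 0)
  have d0 : coeff 0 (Z' 0) = ν * j (e 0) := by rw [hν, div_mul_cancel₀ _ (je 0)]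
  have d1 : ∀ k, coeff 0 (Z k) = ν⁻¹ * j (e k) := fun k => by
    have := c0 k 0
    rw [d0, ← mul_assoc] at this
    rw [← mul_right_cancel₀ (je 0) this]
    field_simp
  have d2 : ∀ l, coeff 0 (Z' l) = ν * j (e l) := fun l => by
    have := c0 0 l
    rw [d1, mul_right_comm, mul_comm (j (e 0))] at this
    rw [← mul_right_cancel₀ (je 0) this]
    field_simp
  obtain ⟨g, hg⟩ : ∃ g : (AlgebraicClosure K), ∀ k, ν * coeff 1 (Z k) - j (a k) = g * j (e k) := by
    refine ⟨(j (a' 0) - ν⁻¹ * coeff 1 (Z' 0)) / j (e 0), fun k => ?_⟩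
    have := c1 k
    rw [d0, d1] at this
    rw [div_mul_eq_mul_div, eq_div_iff (je 0)]
    linear_combination this
  obtain ⟨g', hg'⟩ := exists_avg g
  refine ⟨g', fun i => ?_⟩
  by_cases o : f i - g' = 0
  · exact Or.inl o
  refine Or.inr fun C hC => ?_
  rw [Finsupp.zero_apply, add_zero]
  refine Pl.ord_nonneg_of_mem _ (hg' C.pl _ C.const_mem fun V hV => ?_)
  obtain ⟨k, hk⟩ := hD C
  let v := V.valuation
  have vc : ∀ c : ℂ, v (algebraMap ℂ (AlgebraicClosure K) c) ≤ 1 := fun c => by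
    rw [IsScalarTower.algebraMap_apply ℂ K (AlgebraicClosure K)]
    exact (V.valuation_le_one_iff _).2 (hV _ (C.const_mem c))
  have ve : 0 < v (j (e k)) := zero_lt_iff.2 ((_root_.map_ne_zero v).2 (je k))
  have vν : 0 < v ν := zero_lt_iff.2 ((_root_.map_ne_zero v).2 ν0)
  have key : ∀ {y b : K}, b ≠ 0 → y / b ∈ C.pl.ring → v (j y) ≤ v (j b) := fun {y b} hb hy => by
    have := (V.valuation_le_one_iff _).2 (hV _ hy)
    rw [map_div₀, map_div₀] at this
    exact (div_le_one₀ (zero_lt_iff.2 ((_root_.map_ne_zero v).2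
      ((_root_.map_ne_zero j).2 hb)))).1 this
  obtain ⟨n₀, m₀⟩ := (hZ k).exists_max v vc
  obtain ⟨n₁, m₁⟩ := (hZ' k).exists_max v vc
  have g1 := gauss v m₀ m₁ (γ := v (j (e k)) * v (j (e k))) fun n => by
    rw [hm, coeff_map, ← map_mul, ← map_mul]
    refine key (mul_ne_zero (he k) (he k)) (div_mem (P := fun _ => True) trivial
      (mul_ne_zero (he k) (he k)) ?_ (hU k k n))
    rw [Finsupp.add_apply, hk]
    unfold Crv.ord
    rw [Pl.ord_mul _ (he k) (he k)]
    ring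
  have g2 : v (ν * coeff 1 (Z k)) ≤ v (j (e k)) := by
    have g3 := m₁ 0
    rw [d2, map_mul] at g3
    refine le_of_mul_le_mul_right ?_ ve
    rw [map_mul, mul_comm (v ν), mul_assoc]
    exact (mul_le_mul' (m₀ 1) g3).trans g1
  have g3 : v ((j (f i) - g) * j (e k)) ≤ v (j (e k)) := by
    have : (j (f i) - g) * j (e k) = j (a k + f i * e k) - ν * coeff 1 (Z k) := by
      rw [map_add, map_mul]
      linear_combination hg k
    rw [this]
    exact v.map_sub_le (key (he k) (div_mem hC (he k) hk (ha i k))) g2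
  rw [map_mul] at g3
  exact (V.valuation_le_one_iff _).1 ((mul_le_iff_le_one_left ve).1 g3)

end Vale.Agent.P297Z.Sf.Pic
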